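import Vale.Agent.P216.H347.Crs1

/-!
# The crossing lemma `N929.Cross`
-/

open Finsupp Set BoundedContinuousFunction Topology

namespace Vale.Agent.P216.Crs

open Vale.Agent.P216.Sl Vale.Agent.P216.PS Vale.Agent.P216.N929

variable {M : Type} [MetricSpace M] [CompactSpace M] {k : Type} [Field k]

/-- The paths after the cut are all homotopic to the paths before the junction. -/
theorem ev_cut [SimplyConnectedSpace M] {ρ₀ ρ₁ r : ℝ} {x₀ p q q' : M} {c ℓ s : ℝ} {v : ℝ →ᵇ M}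
    {m : ℕ} {g : List (ℝ →ᵇ M) → k} {ε₀ : ℝ} (hseg : LS.UniqSeg M ρ₀) (hr : 0 < r)
    (hrρ : r < ρ₀) (hρr : ρ₁ < r) (hc : 0 ≤ c) (hℓ : 0 ≤ ℓ) (hs : 0 ≤ s) (hv : v ∈ P p q ℓ)
    (hε₀ : 0 < ε₀) (hcoc : ∀ T, Coc (P x₀ p T) ε₀ m g) {z : Ch k (ℝ →ᵇ M)}
    (hz : Cy (P x₀ p c) ε₀ m z) {α : ℝ →ᵇ M} (hα : α ∈ P q q' s) {σ : ℝ} (hσ0 : 0 ≤ σ)
    (hσs : σ ≤ s) (hd : dist (α σ) p < ρ₁) :
    ev (fun l => g (l.map fun w => cutp r p (cat c w (cat ℓ v α), σ + (c + ℓ)))) z = ev g z := by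
  have mx := cat_mem hℓ hs hv hα
  have h3 : v ℓ = α 0 := by rw [eq_right hv le_rfl, eq_left hα le_rfl]
  have ex : cat ℓ v α (ℓ + σ) = α σ := by
    rw [cat_apply hv.1 hα.1 h3, catf_right h3 (by linarith), add_sub_cancel_left]
  have hdx : dist (cat ℓ v α (ℓ + σ)) p ≤ r := by rw [ex]; linarith
  set b : ℝ →ᵇ M := splice r (cat ℓ v α) (cst p) (ℓ + σ) 0 with hb
  have mb : b ∈ P p p (ℓ + s + r) := by
    have := splice_mem (b := p) (t := 0) (τ := 0) hseg hr hrρ mx.1 (lip_cst p)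
      (by rwa [cst_apply]) (by linarith : 0 ≤ ℓ + σ) le_rfl mx.2.1 (fun _ _ => rfl)
    exact P_mono (by linarith) this
  obtain ⟨D, hD, -, hj⟩ := H250.pi0 (M := M) (hr.trans hrρ) hseg
  have hjo := hj p p (ℓ + s + r) (by linarith) b mb (cst p) (cst_mem p _)
  have key := ev_cat_joined (eta := g) hc (by linarith : 0 ≤ ℓ + s + r + D) hε₀ (hcoc _) hjo hz
  have e1 : ev (fun l => g (l.map fun w => cutp r p (cat c w (cat ℓ v α), σ + (c + ℓ)))) z =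
      ev (fun l => g (l.map fun y => cat c y b)) z := by
    refine ev_congr (fun l hl => ?_) hz.1
    rw [List.map_congr_left fun w hw => ?_]
    have := splice_cat hseg hr hrρ hc (by linarith : 0 ≤ ℓ + s) (hl.2.1 w hw) mx
      (by linarith : 0 ≤ ℓ + σ) hdx
    rw [cutp, show σ + (c + ℓ) = c + (ℓ + σ) by ring]
    exact this
  rw [e1, key]
  refine ev_congr (fun l hl => ?_) hz.1
  congr 1
  conv_rhs => rw [← List.map_id l]
  exact List.map_congr_left fun w hw => cat_cst (hl.2.1 w hw)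

/-- The part after the junction. -/
theorem part2 [SimplyConnectedSpace M] {ρ₀ ρ₁ r : ℝ} {x₀ p q q' : M} {c ℓ s : ℝ} {v : ℝ →ᵇ M}
    {n m : ℕ} (τ : Tau k M n ρ₁) {g : List (ℝ →ᵇ M) → k} {ε₀ : ℝ} (hseg : LS.UniqSeg M ρ₀)
    (hr : 0 < r) (hrρ : r < ρ₀) (hρr : ρ₁ < r) (hc : 0 ≤ c) (hℓ : 0 ≤ ℓ) (hs : 0 ≤ s)
    (hv : v ∈ P p q ℓ) (hε₀ : 0 < ε₀) (hcoc : ∀ T, Coc (P x₀ p T) ε₀ m g)
    {z a : Ch k (ℝ →ᵇ M)} (hz : Cy (P x₀ p c) ε₀ m z)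
    (ha : a ∈ Sp k (fun l => l.length = n ∧ ∀ w ∈ l, w ∈ P q q' s)) {ι : Ch k ℝ}
    (hι : ι ∈ Sp k (fun l => l.length = 2 ∧ ∀ x ∈ l, x ∈ Icc 0 s)) :
    ev (intg n τ.f g r p) (sh (mp (fun x : (ℝ →ᵇ M) × (ℝ →ᵇ M) => cat c x.1 (cat ℓ v x.2))
      (sh z a)) (mp (fun t => t + (c + ℓ)) ι)) =
      (-1) ^ ((m + 1 + 1) * n) * (ev (fun L => τ.f (L.map (evp p))) (sh a ι) * ev g z) := by
  rw [sh_mp, ev_mp]
  set A : (ℝ →ᵇ M) × ((ℝ →ᵇ M) × ℝ) → (ℝ →ᵇ M) × ℝ := fun x =>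
    (cat c x.1 (cat ℓ v x.2.1), x.2.2 + (c + ℓ)) with hA
  set τ' : List ((ℝ →ᵇ M) × ℝ) → k := fun L => τ.f (L.map (evp p)) with hτ'
  have hN : Nrm τ' := τ.nrm.map (evp p)
  set G : List ((ℝ →ᵇ M) × ((ℝ →ᵇ M) × ℝ)) → k := fun L => g (L.map fun x => cutp r p (A x))
    with hG
  have e1 : ev (fun L : List (((ℝ →ᵇ M) × (ℝ →ᵇ M)) × ℝ) => intg n τ.f g r p (L.map (Prod.map
      (fun x : (ℝ →ᵇ M) × (ℝ →ᵇ M) => cat c x.1 (cat ℓ v x.2)) fun t => t + (c + ℓ))))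
      (sh (sh z a) ι) = ev (fun L => intg n τ.f g r p (L.map A)) (sh z (sh a ι)) := by
    rw [ev_sh_assoc]
    refine ev_congr (P := fun _ => True) (fun L _ => ?_) (by simp [Finsupp.mem_supported])
    rw [List.map_map]
    rfl
  rw [e1]
  have ht : sh a ι ∈ Sp k (fun t => t.length = n + 1 ∧ ∀ x ∈ t, x.1 ∈ P q q' s ∧
      x.2 ∈ Icc 0 s) := by
    refine sh_mem (fun S T L hS hT hL => ⟨?_, fun x hx => ⟨hS.2 _ (hL.2 x hx).1,
      hT.2 _ (hL.2 x hx).2⟩⟩) ha hι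
    have e1 := hL.1
    have e2 := hS.1
    have e3 := hT.1
    omega
  have e2 : ev (fun L => intg n τ.f g r p (L.map A)) (sh z (sh a ι)) =
      ev (fun L => τ' ((L.take (n + 1)).map Prod.snd) * G (L.drop n)) (sh z (sh a ι)) := by
    refine ev_congr (P := fun L => ∀ x ∈ L, x.1 ∈ P x₀ p c ∧ x.2.1 ∈ P q q' s ∧
      x.2.2 ∈ Icc 0 s) (fun L hL => ?_) ?_
    · rw [intg, N929.cup, ← List.map_take, ← List.map_drop, List.map_map, List.map_map, hτ', hG]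
      simp only [List.map_map]
      congr 2
      refine List.map_congr_left fun x hx => ?_
      obtain ⟨h1, h2, h3⟩ := hL x (List.mem_of_mem_take hx)
      change (cat c x.1 (cat ℓ v x.2.1) (x.2.2 + (c + ℓ)), p) = (x.2.1 x.2.2, p)
      have m1 := cat_mem hc hℓ h1 hv
      have h4 : cat c x.1 v (c + ℓ) = x.2.1 0 := by rw [eq_right m1 le_rfl, eq_left h2 le_rfl]
      rw [← cat_assoc' hc hℓ hs h1 hv h2, cat_apply m1.1 h2.1 h4,
        catf_right h4 (by linarith [h3.1]), add_sub_cancel_right]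
    · exact sh_mem (fun S T L hS hT hL x hx => ⟨hS.2.1 _ (hL.2 x hx).1,
        (hT.2 _ (hL.2 x hx).2).1, (hT.2 _ (hL.2 x hx).2).2⟩) hz.1 ht
  rw [e2]
  have key := eq_of_mem
    (F := ev (fun L => τ' ((L.take (n + 1)).map Prod.snd) * G (L.drop n)) ∘ₗ
      (sh (k := k) (α := ℝ →ᵇ M) (β := (ℝ →ᵇ M) × ℝ)) z)
    (G := ((-1) ^ ((m + 1 + 1) * n) * ev g z) • ev τ') (fun t htt => ?_) ht
  · rw [LinearMap.comp_apply, LinearMap.smul_apply, smul_eq_mul] at key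
    rw [key]
    ring
  -- one list `t`
  obtain ⟨y, hy⟩ : ∃ y, t.drop n = [y] := by
    rw [← List.length_eq_one_iff, List.length_drop, htt.1]
    omega
  have hyt : y ∈ t := List.mem_of_mem_drop (by rw [hy]; exact List.mem_singleton_self y)
  have htake : t.take (n + 1) = t := List.take_of_length_le (by rw [htt.1])
  rw [LinearMap.comp_apply, LinearMap.smul_apply, smul_eq_mul, ev_single, one_mul]
  have e3 := eq_of_mem
    (F := ev (fun L => τ' ((L.take (n + 1)).map Prod.snd) * G (L.drop n)) ∘ₗ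
      (sh (k := k) (α := ℝ →ᵇ M) (β := (ℝ →ᵇ M) × ℝ)).flip (single t 1))
    (G := ((-1) ^ ((m + 1 + 1) * n) * τ' t) •
      ev (fun l => g (l.map fun w => cutp r p (A (w, y))))) (fun S hS => ?_) hz.1
  · rw [LinearMap.comp_apply, LinearMap.flip_apply, LinearMap.smul_apply, smul_eq_mul] at e3
    rw [e3]
    by_cases h0 : τ' t = 0
    · rw [h0]; ring
    · have hd : dist (y.1 y.2) p < ρ₁ := by
        by_contra hcon
        exact h0 (τ.supp _ ⟨evp p y, List.mem_map_of_mem hyt, not_lt.1 hcon⟩)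
      obtain ⟨hy1, hy2⟩ := htt.2 y hyt
      rw [ev_cut hseg hr hrρ hρr hc hℓ hs hv hε₀ hcoc hz hy1 hy2.1 hy2.2 hd]
      ring
  · rw [LinearMap.comp_apply, LinearMap.flip_apply, LinearMap.smul_apply, smul_eq_mul, ev_single,
      one_mul, sh_single, front_right hN G n S t (by rw [hS.1, htt.1]; omega)
      (by rintro rfl; simp at hS) (by rintro rfl; simp at htt), if_pos (by rw [htt.1]), htake, hy,
      Sh_point_right y (by rintro rfl; simp at hS), ev_single, one_mul, hG, hS.1]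
    simp only [List.map_map]
    rw [mul_assoc]
    rfl

/-- **The crossing lemma.** -/
theorem cross : N929.Cross := by
  intro M _ _ _ ρ₀ ρ₁ r x₀ p q c ℓ s v k _ n m τ g ε₀ hseg hr hrρ hρ₁ hρr _ _ hn hc hℓ hs hv hg
    hε₀ hcoc ⟨ε₁, hε₁, ha⟩ hz ε hε
  obtain ⟨a, ha1, ha2⟩ := ha (min ε (min ε₀ ε₁)) (lt_min hε (lt_min hε₀ hε₁))
    ((min_le_right _ _).trans (min_le_right _ _))
  obtain ⟨z, hz1, hz2⟩ := hz (min ε (min ε₀ ε₁)) (lt_min hε (lt_min hε₀ hε₁))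
  have hε' : 0 < min ε (min ε₀ ε₁) := lt_min hε (lt_min hε₀ hε₁)
  obtain ⟨ι₁, hι₁⟩ := Tau.exists_isMesh k (by linarith : 0 ≤ c + ℓ) hε'
  obtain ⟨ι₂, hι₂⟩ := Tau.exists_isMesh k hs hε'
  have h₁ : Edge 0 (c + ℓ) (min ε (min ε₀ ε₁)) ι₁ := ⟨hι₁.mem, hι₁.bd⟩
  have h₂ : Edge 0 s (min ε (min ε₀ ε₁)) ι₂ := ⟨hι₂.mem, hι₂.bd⟩
  have hE := edge_add (by linarith : 0 ≤ c + ℓ) hs h₁ h₂
  refine ⟨mp (fun x : (ℝ →ᵇ M) × (ℝ →ᵇ M) => cat c x.1 (cat ℓ v x.2)) (sh z a), ?_,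
    ι₁ + mp (fun t => t + (c + ℓ)) ι₂, ?_, ?_⟩
  · have h3 := cy_phi hn hc hℓ hs hv hz1 ha1
    exact ⟨Sp_mono (fun l hl => ⟨hl.1, hl.2.mono subset_rfl (min_le_left _ _)⟩) h3.1, h3.2⟩
  · exact ⟨Sp_mono (fun l hl => ⟨hl.1, hl.2.mono subset_rfl (min_le_left _ _)⟩) hE.1, hE.2⟩
  · have p1 := part1 τ.nrm hg hn hr hc hℓ hs hv (Sp_mono (fun l hl => ⟨hl.1, hl.2.1⟩) hz1.1)
      (j := n) (Sp_mono (fun l hl => ⟨by have := hl.1; omega, hl.2.1⟩) ha1.1)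
      (Sp_mono (fun l hl x hx => (hl.2.1 x hx).2) h₁.1) (n := n) p
    have hz1' : Cy (P x₀ p c) ε₀ m z := ⟨Sp_mono (fun l hl => ⟨hl.1, hl.2.mono subset_rfl
      ((min_le_right _ _).trans (min_le_left _ _))⟩) hz1.1, hz1.2⟩
    have p2 := part2 τ hseg hr hrρ hρr hc hℓ hs hv hε₀ hcoc hz1'
      (Sp_mono (fun l hl => ⟨by have := hl.1; omega, hl.2.1⟩) ha1.1)
      (Sp_mono (fun l hl => ⟨hl.1, hl.2.1⟩) h₂.1)
    rw [map_add, map_add, p1, p2, zero_add, ha2 ι₂ h₂, one_mul]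
    exact mul_ne_zero (pow_ne_zero _ (neg_ne_zero.2 one_ne_zero)) hz2

end Vale.Agent.P216.Crs
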