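import Mathlib.Analysis.SpecialFunctions.Bernstein
import Mathlib.Topology.MetricSpace.HausdorffDimension
import Mathlib.Geometry.Manifold.Instances.Sphere
import Mathlib.AlgebraicTopology.FundamentalGroupoid.SimplyConnected
import Mathlib.Analysis.Normed.Module.Connected
import Mathlib.Analysis.InnerProductSpace.PiL2

/-!
# The sphere of dimension at least two is simply connected

A loop is homotopic (straight line, normalised) to a polynomial one (Bernstein), which misses a
point; the complement of a point is contractible (stereographic projection).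
-/

open Set Filter Topology unitInterval Metric Module

namespace Vale.Agent.P216.SCS

variable {E : Type} [NormedAddCommGroup E] [InnerProductSpace ℝ E]

/-- Normalisation. -/
noncomputable def nz (v : E) : E := ‖v‖⁻¹ • v

theorem norm_nz {v : E} (hv : v ≠ 0) : ‖nz v‖ = 1 := by
  rw [nz, norm_smul, norm_inv, norm_norm, inv_mul_cancel₀ (norm_ne_zero_iff.2 hv)]

theorem nz_of_norm_one {v : E} (hv : ‖v‖ = 1) : nz v = v := by rw [nz, hv, inv_one, one_smul]

theorem continuous_nz {X : Type} [TopologicalSpace X] {f : X → E} (hf : Continuous f)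
    (h0 : ∀ x, f x ≠ 0) : Continuous fun x => nz (f x) :=
  (hf.norm.inv₀ fun x => norm_ne_zero_iff.2 (h0 x)).smul hf

/-- A path on the sphere is homotopic to the normalisation of a close path of the space. -/
theorem exists_push {x y : sphere (0 : E) 1} (γ : Path x y) (P : C(I, E)) (h0 : P 0 = x)
    (h1 : P 1 = y) (hP : ∀ t, ‖P t - (γ t : E)‖ < 1) :
    ∃ γ' : Path x y, γ.Homotopic γ' ∧ ∀ t, P t ≠ 0 ∧ (γ' t : E) = nz (P t) := by
  have hγ : ∀ t, ‖(γ t : E)‖ = 1 := fun t => norm_eq_of_mem_sphere (γ t)
  have key : ∀ (s : I) (t : I), (1 - (s : ℝ)) • (γ t : E) + (s : ℝ) • P t ≠ 0 := by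
    intro s t h
    have e0 : (γ t : E) - -((s : ℝ) • (P t - (γ t : E))) =
        (1 - (s : ℝ)) • (γ t : E) + (s : ℝ) • P t := by
      rw [smul_sub, sub_smul, one_smul]
      abel
    have e : (γ t : E) = -((s : ℝ) • (P t - (γ t : E))) := sub_eq_zero.1 (e0.trans h)
    have h3 := congrArg norm e
    rw [hγ, norm_neg, norm_smul, Real.norm_of_nonneg s.2.1] at h3
    have h2 := hP t
    have h4 : (s : ℝ) * ‖P t - (γ t : E)‖ ≤ 1 * ‖P t - (γ t : E)‖ :=
      mul_le_mul_of_nonneg_right s.2.2 (norm_nonneg _)
    linarith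
  have keyP : ∀ t, P t ≠ 0 := fun t => by
    have := key 1 t
    simpa using this
  have hcont : Continuous fun p : I × I =>
      nz ((1 - (p.1 : ℝ)) • (γ p.2 : E) + (p.1 : ℝ) • P p.2) := by
    refine continuous_nz ?_ fun p => key p.1 p.2
    have h2 : Continuous fun p : I × I => (γ p.2 : E) :=
      continuous_subtype_val.comp (γ.continuous.comp continuous_snd)
    have h3 : Continuous fun p : I × I => P p.2 := P.continuous.comp continuous_snd
    have h4 : Continuous fun p : I × I => (p.1 : ℝ) := continuous_subtype_val.comp continuous_fst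
    exact ((continuous_const.sub h4).smul h2).add (h4.smul h3)
  have mS : ∀ v : E, v ≠ 0 → nz v ∈ sphere (0 : E) 1 := fun v hv => by simpa using norm_nz hv
  refine ⟨{ toFun := fun t => ⟨nz (P t), mS _ (keyP t)⟩
            continuous_toFun := Continuous.subtype_mk (continuous_nz P.continuous keyP)
              fun t => mS _ (keyP t)
            source' := Subtype.ext (by
              change nz (P 0) = x
              rw [h0]
              exact nz_of_norm_one (norm_eq_of_mem_sphere x))
            target' := Subtype.ext (by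
              change nz (P 1) = y
              rw [h1]
              exact nz_of_norm_one (norm_eq_of_mem_sphere y)) }, ⟨?_⟩, fun t => ⟨keyP t, rfl⟩⟩
  refine { toFun := fun p => ⟨nz ((1 - (p.1 : ℝ)) • (γ p.2 : E) + (p.1 : ℝ) • P p.2),
             mS _ (key p.1 p.2)⟩
           continuous_toFun := Continuous.subtype_mk hcont fun p => mS _ (key p.1 p.2)
           map_zero_left := fun t => Subtype.ext ?_
           map_one_left := fun t => Subtype.ext ?_
           prop' := fun s t ht => Subtype.ext ?_ }
  · change nz ((1 - ((0 : I) : ℝ)) • (γ t : E) + ((0 : I) : ℝ) • P t) = γ t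
    rw [Set.Icc.coe_zero, sub_zero, one_smul, zero_smul, add_zero]
    exact nz_of_norm_one (hγ t)
  · change nz ((1 - ((1 : I) : ℝ)) • (γ t : E) + ((1 : I) : ℝ) • P t) = nz (P t)
    rw [Set.Icc.coe_one, sub_self, one_smul, zero_smul, zero_add]
  · change nz ((1 - (s : ℝ)) • (γ t : E) + (s : ℝ) • P t) = γ t
    have hPt : P t = γ t := by
      rcases ht with rfl | rfl
      · rw [h0, γ.source]
      · rw [h1, γ.target]
    rw [hPt, ← add_smul, sub_add_cancel, one_smul]
    exact nz_of_norm_one (hγ t)

/-- The complement of a point of the sphere is simply connected. -/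
theorem null_of_miss {x : sphere (0 : E) 1} (γ : Path x x) (p : sphere (0 : E) 1)
    (hp : ∀ t, γ t ≠ p) : γ.Homotopic (Path.refl x) := by
  have hv : ‖(p : E)‖ = 1 := norm_eq_of_mem_sphere p
  set U : Set (sphere (0 : E) 1) := (stereographic hv).source with hU
  have hUp : ∀ q : sphere (0 : E) 1, q ≠ p → q ∈ U := by
    intro q hq
    rw [hU, stereographic_source]
    exact hq
  have hsc : SimplyConnectedSpace U := by
    have e1 : U ≃ₜ (stereographic hv).target := (stereographic hv).toHomeomorphSourceTarget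
    rw [stereographic_target] at e1
    have e2 : U ≃ₜ (ℝ ∙ (p : E))ᗮ := e1.trans (Homeomorph.Set.univ _)
    have : SimplyConnectedSpace ((ℝ ∙ (p : E))ᗮ) := inferInstance
    exact e2.toHomotopyEquiv.simplyConnectedSpace
  have hx : x ∈ U := hUp x (by
    have := hp 0
    rwa [γ.source] at this)
  set g : Path (⟨x, hx⟩ : U) ⟨x, hx⟩ :=
    { toFun := fun t => ⟨γ t, hUp _ (hp t)⟩
      continuous_toFun := Continuous.subtype_mk γ.continuous _
      source' := Subtype.ext γ.source
      target' := Subtype.ext γ.target } with hg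
  have h1 := SimplyConnectedSpace.paths_homotopic g (Path.refl _)
  have h2 := h1.map (⟨Subtype.val, continuous_subtype_val⟩ : C(U, sphere (0 : E) 1))
  exact h2

theorem miss_point [FiniteDimensional ℝ E] (hE : 2 < finrank ℝ E) (N : ℕ) (a : Fin (N + 1) → E) :
    ∃ p : sphere (0 : E) 1, ∀ t : ℝ,
      (∑ k : Fin (N + 1), ((N.choose k : ℝ) * t ^ (k : ℕ) * (1 - t) ^ (N - k)) • a k) ≠ 0 →
      nz (∑ k : Fin (N + 1), ((N.choose k : ℝ) * t ^ (k : ℕ) * (1 - t) ^ (N - k)) • a k) ≠ p := by
  set Q : ℝ → E := fun t =>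
    ∑ k : Fin (N + 1), ((N.choose k : ℝ) * t ^ (k : ℕ) * (1 - t) ^ (N - k)) • a k with hQ
  have hQd : ContDiff ℝ 1 Q := by
    refine ContDiff.sum fun k _ => ContDiff.smul ?_ contDiff_const
    exact (contDiff_const.mul (contDiff_id.pow _)).mul ((contDiff_const.sub contDiff_id).pow _)
  set g : ℝ × ℝ → E := fun p => p.1 • Q p.2 with hg
  have hgd : ContDiff ℝ 1 g := contDiff_fst.smul (hQd.comp contDiff_snd)
  have hd : Dense (range g)ᶜ := hgd.dense_compl_range_of_finrank_lt_finrank (by
    rw [finrank_prod, finrank_self]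
    exact hE)
  obtain ⟨v, hv⟩ := hd.nonempty
  have hv0 : v ≠ 0 := by
    rintro rfl
    exact hv ⟨(0, 0), by simp [hg]⟩
  refine ⟨⟨nz v, by simpa using norm_nz hv0⟩, fun t ht h => hv ⟨(‖v‖ * ‖Q t‖⁻¹, t), ?_⟩⟩
  have h' : nz (Q t) = nz v := h
  change (‖v‖ * ‖Q t‖⁻¹) • Q t = v
  rw [mul_smul]
  change ‖v‖ • nz (Q t) = v
  rw [h', nz, smul_smul, mul_inv_cancel₀ (norm_ne_zero_iff.2 hv0), one_smul]

theorem simplyConnected_of_finrank [FiniteDimensional ℝ E] (hE : 2 < finrank ℝ E) :
    SimplyConnectedSpace (sphere (0 : E) 1) := by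
  rw [simply_connected_iff_loops_nullhomotopic]
  refine ⟨?_, fun x γ => ?_⟩
  · refine isPathConnected_iff_pathConnectedSpace.1 (isPathConnected_sphere ?_ 0 zero_le_one)
    rw [← finrank_eq_rank]
    exact_mod_cast (by omega : 1 < finrank ℝ E)
  · set f : C(I, E) := ⟨fun t => (γ t : E), continuous_subtype_val.comp γ.continuous⟩ with hf
    obtain ⟨N₀, hN₀⟩ := eventually_atTop.1 (Metric.tendstoUniformly_iff.1
      (ContinuousMap.tendsto_iff_tendstoUniformly.1 (bernsteinApproximation_uniform f)) 1 one_pos)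
    set N := N₀ + 1 with hN
    have hdist := hN₀ N (Nat.le_succ _)
    set P := bernsteinApproximation N f with hP
    have hP1 : ∀ t, ‖P t - (γ t : E)‖ < 1 := fun t => by
      rw [← dist_eq_norm, dist_comm]
      exact hdist t
    obtain ⟨γ', hh, hγ'⟩ := exists_push γ P
      (by rw [hP, bernsteinApproximation.apply_zero]; exact congrArg Subtype.val γ.source)
      (by
        rw [hP, bernsteinApproximation.apply_one (Nat.succ_ne_zero _)]
        exact congrArg Subtype.val γ.target) hP1
    obtain ⟨p, hp⟩ := miss_point hE N (fun k => f (bernstein.z k))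
    have hPQ : ∀ t : I, P t = ∑ k : Fin (N + 1),
        ((N.choose k : ℝ) * (t : ℝ) ^ (k : ℕ) * (1 - (t : ℝ)) ^ (N - k)) • f (bernstein.z k) := by
      intro t
      rw [hP, bernsteinApproximation.apply]
      refine Finset.sum_congr rfl fun k _ => ?_
      rw [bernstein_apply]
    refine hh.trans (null_of_miss γ' p fun t h => ?_)
    have h1 := (hγ' t).1
    rw [hPQ] at h1
    refine hp t h1 ?_
    rw [← hPQ, ← (hγ' t).2, h]

/-- **The `n`-sphere is simply connected for `n ≥ 2`.** -/
theorem simplyConnected_sphere (n : ℕ) (hn : 2 ≤ n) :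
    SimplyConnectedSpace (sphere (0 : EuclideanSpace ℝ (Fin (n + 1))) 1) :=
  simplyConnected_of_finrank (by
    rw [finrank_euclideanSpace_fin]
    omega)

theorem simplyConnected_of_homeo {X Y : Type*} [TopologicalSpace X] [TopologicalSpace Y]
    (e : X ≃ₜ Y) [SimplyConnectedSpace Y] : SimplyConnectedSpace X :=
  e.toHomotopyEquiv.simplyConnectedSpace

end Vale.Agent.P216.SCS
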