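import Vale.Agent.P216.H311.PathSp
import Mathlib.Analysis.InnerProductSpace.PiL2

/-!
# P216, Theorem B, block [TAU] : definitions and the two geometric inputs

`Fh h ((x, y), t) = -(1 - t) h x + t h y`, a point of `ℝⁿ⁺¹`, which is `0` only if `x = y`
(and `t = 1/2`).
-/

open Set BoundedContinuousFunction

namespace Vale.Agent.P216.Tau

/-- The unit cube. -/
def cube (n : ℕ) : Set (Fin n → ℝ) := {v | ∀ i, v i ∈ Icc (0 : ℝ) 1}

/-- The boundary of the unit cube. -/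
def bdc (n : ℕ) : Set (Fin n → ℝ) := {v | v ∈ cube n ∧ ∃ i, v i = 0 ∨ v i = 1}

/-- The segment from `-h x` to `h y` (in coordinates). -/
noncomputable def Fh {n : ℕ} {M : Type} [TopologicalSpace M]
    (h : M ≃ₜ Metric.sphere (0 : EuclideanSpace ℝ (Fin (n + 1))) 1) (p : (M × M) × ℝ) :
    Fin (n + 1) → ℝ :=
  fun j => -(1 - p.2) * (h p.1.1).1 j + p.2 * (h p.1.2).1 j

/-- [P4] the standard map `B` of the cube onto the sphere, boundary to `xm`, centre to `xp`: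
the two straight homotopies to `v ↦ v - 1/2` do not vanish on the boundary of the cube.
(`B θ = h⁻¹ (normalise b θ)`, `b θ = (±(1 - r)(θ - 1/2), 1 - 2 r)`, `r = 2 ‖θ - 1/2‖`, sign `-` for
the first condition and `+` for the second one; `h xp = (0, .., 0, 1)`, `h xm = (0, .., 0, -1)`.) -/
def StDeg (n : ℕ) : Prop :=
  ∀ (M : Type) [MetricSpace M] [CompactSpace M]
    (h : M ≃ₜ Metric.sphere (0 : EuclideanSpace ℝ (Fin (n + 1))) 1),
  ∃ (B B' : (Fin n → ℝ) → M) (xm xp : M), Continuous B ∧ Continuous B' ∧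
    (∀ θ ∈ bdc n, B θ = xm) ∧ (∀ θ ∈ bdc n, B' θ = xm) ∧
    (∀ v ∈ bdc (n + 1), ∀ s ∈ Icc (0 : ℝ) 1,
      (1 - s) • Fh h ((B (Fin.init v), xp), v (Fin.last n)) + s • (fun j => v j - 1 / 2) ≠ 0) ∧
    (∀ v ∈ bdc (n + 1), ∀ s ∈ Icc (0 : ℝ) 1,
      (1 - s) • Fh h ((xp, B' (Fin.init v)), v (Fin.last n)) + s • (fun j => v j - 1 / 2) ≠ 0)

/-- [P3] polygonal approximation: every map of the cube into `M`, constant on the boundary, is the
end point of a continuous family of 1-Lipschitz curves. -/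
def StPoly : Prop :=
  ∀ (M : Type) [MetricSpace M] [CompactSpace M] (ρ : ℝ), 0 < ρ → LS.UniqSeg M ρ →
  ∀ (n : ℕ) (B : (Fin n → ℝ) → M) (x₁ : M), Continuous B → 1 ≤ n → (∀ θ ∈ bdc n, B θ = x₁) →
  ∃ la : ℝ, 0 < la ∧ ∃ a : (Fin n → ℝ) → (ℝ →ᵇ M), ContinuousOn a (cube n) ∧
    ∀ θ ∈ cube n, a θ ∈ PS.P x₁ (B θ) la

end Vale.Agent.P216.Tau
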