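import Vale.Agent.P216.H347.Cup
import Vale.Agent.P216.H347.TauDefs
import Vale.Agent.P216.H787.Fib

/-!
# P216, Theorem B, block [TAU] : cube chains, Stokes, homotopy, evaluation of the cocycle `W`
-/

open Set Finsupp Vale.Agent.P216.Sl

namespace Vale.Agent.P216.Tau

variable {k : Type} [Field k]
variable {α β γ : Type}

/-! ### Stokes and homotopy -/

theorem stokes (f : List β → k) {p : ℕ} {c : Ch k α} (hc : c ∈ Sp k (Ln (p + 1))) {ι : Ch k γ}
    (hι : ι ∈ Sp k (Ln 2)) {t0 t1 : γ} (hb : bd ι = single [t1] 1 - single [t0] 1)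
    (K : α × γ → β) (h1 : ev (dl f) (mp K (sh c ι)) = 0) :
    ev f (mp K (sh (bd c) ι)) = -((-1 : k) ^ p * (ev f (mp (fun x => K (x, t1)) c) -
      ev f (mp (fun x => K (x, t0)) c))) := by
  have h2 := bd_sh (p := p) (q := 1) (by omega) hc hι
  rw [hb, map_sub, sh_point_right t1 (Ln_ne hc), sh_point_right t0 (Ln_ne hc)] at h2
  have h3 := congrArg (fun z => ev f (mp K z)) h2
  simp only [map_add, map_smul, map_sub, smul_eq_mul] at h3
  rw [ev_dl, bd_mp, h3] at h1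
  have e : ∀ t, ev f (mp K (mp (fun a => (a, t)) c)) = ev f (mp (fun x => K (x, t)) c) := by
    intro t
    rw [ev_mp, ev_mp, ev_mp]
    have e' : (fun l : List α => f ((l.map fun a => (a, t)).map K)) =
        fun l => f (l.map fun x => K (x, t)) := funext fun l => by
      rw [List.map_map]
      rfl
    rw [e']
  rw [e, e] at h1
  linear_combination h1

theorem hom (f : List β → k) {p : ℕ} {c : Ch k α} (hc : c ∈ Sp k (Ln (p + 1))) {ι : Ch k γ}
    (hι : ι ∈ Sp k (Ln 2)) {t0 t1 : γ} (hb : bd ι = single [t1] 1 - single [t0] 1)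
    (K : α × γ → β) (h1 : ev (dl f) (mp K (sh c ι)) = 0)
    (h2 : ev f (mp K (sh (bd c) ι)) = 0) :
    ev f (mp (fun x => K (x, t1)) c) = ev f (mp (fun x => K (x, t0)) c) := by
  have h3 := stokes f hc hι hb K h1
  rw [h2] at h3
  have h4 : ((-1 : k) ^ p) ≠ 0 := pow_ne_zero _ (neg_ne_zero.2 one_ne_zero)
  have h5 := mul_eq_zero.1 (neg_eq_zero.1 h3.symm)
  exact sub_eq_zero.1 (h5.resolve_left h4)

/-! ### Meshes of an interval -/

/-- Short edges of `[a, b]`. -/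
def Msh (a b δ : ℝ) (l : List ℝ) : Prop :=
  l.length = 2 ∧ (∀ x ∈ l, x ∈ Icc a b) ∧ ∀ x ∈ l, ∀ y ∈ l, dist x y < δ

theorem Msh.mono {a b δ δ' : ℝ} (h : δ ≤ δ') {l : List ℝ} (hl : Msh a b δ l) : Msh a b δ' l :=
  ⟨hl.1, hl.2.1, fun x hx y hy => (hl.2.2 x hx y hy).trans_le h⟩

/-- A chain of short edges from `a` to `b`. -/
structure IsMesh (ι : Ch k ℝ) (a b δ : ℝ) : Prop where
  mem : ι ∈ Sp k (Msh a b δ)
  bd : bd ι = single [b] 1 - single [a] 1

theorem IsMesh.ln {ι : Ch k ℝ} {a b δ : ℝ} (h : IsMesh ι a b δ) : ι ∈ Sp k (Ln 2) :=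
  Sp_mono (fun _ hl => hl.1) h.mem

/-- The mesh of `[0, b]` with `N + 1` edges. -/
noncomputable def im (k : Type) [Field k] (b : ℝ) (N : ℕ) : Ch k ℝ := mesh k 0 (b / (N + 1)) (N + 1)

theorem im_isMesh {b δ : ℝ} (hb : 0 ≤ b) {N : ℕ} (h : b / (N + 1) < δ) :
    IsMesh (im k b N) 0 b δ where
  mem := by
    refine Sp_mono ?_ (mesh_mem' 0 (b / (N + 1)) (N + 1))
    rintro l ⟨j, hj, rfl⟩
    have hN : (0 : ℝ) < N + 1 := by positivity
    have hd : 0 ≤ b / (N + 1) := div_nonneg hb hN.le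
    have hj' : ((j + 1 : ℕ) : ℝ) ≤ N + 1 := by exact_mod_cast hj
    have hj'' : (j : ℝ) ≤ N + 1 := by
      refine le_trans ?_ hj'
      push_cast
      linarith
    have e : ((N : ℝ) + 1) * (b / (N + 1)) = b := by field_simp
    have hx : ∀ x ∈ [0 + (j : ℝ) * (b / (N + 1)), 0 + ((j + 1 : ℕ) : ℝ) * (b / (N + 1))],
        x ∈ Icc 0 b := by
      intro x hx
      simp only [List.mem_cons, List.not_mem_nil, or_false] at hx
      rcases hx with rfl | rfl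
      · refine ⟨by positivity, ?_⟩
        rw [zero_add]
        exact (mul_le_mul_of_nonneg_right hj'' hd).trans_eq e
      · refine ⟨by positivity, ?_⟩
        rw [zero_add]
        exact (mul_le_mul_of_nonneg_right hj' hd).trans_eq e
    refine ⟨rfl, hx, ?_⟩
    intro x hx y hy
    simp only [List.mem_cons, List.not_mem_nil, or_false] at hx hy
    have e1 : (0 + ((j + 1 : ℕ) : ℝ) * (b / (N + 1))) - (0 + (j : ℝ) * (b / (N + 1))) =
        b / (N + 1) := by push_cast; ring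
    rcases hx with rfl | rfl <;> rcases hy with rfl | rfl
    · rw [dist_self]; exact hd.trans_lt h
    · rw [dist_comm, Real.dist_eq, e1, abs_of_nonneg hd]; exact h
    · rw [Real.dist_eq, e1, abs_of_nonneg hd]; exact h
    · rw [dist_self]; exact hd.trans_lt h
  bd := by
    rw [im, bd_mesh]
    congr 3
    have hN : (N : ℝ) + 1 ≠ 0 := by positivity
    push_cast
    rw [zero_add, mul_div_cancel₀ _ hN]

theorem exists_N (b : ℝ) {δ : ℝ} (hδ : 0 < δ) : ∃ N₀ : ℕ, ∀ N ≥ N₀, b / ((N : ℝ) + 1) < δ := by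
  obtain ⟨N₀, hN₀⟩ := exists_nat_gt (b / δ)
  refine ⟨N₀, fun N hN => ?_⟩
  have h1 : (0 : ℝ) < N + 1 := by positivity
  rw [div_lt_iff₀ h1]
  rw [div_lt_iff₀ hδ] at hN₀
  have h2 : (N₀ : ℝ) ≤ N := by exact_mod_cast hN
  nlinarith

theorem exists_isMesh (k : Type) [Field k] {b : ℝ} (hb : 0 ≤ b) {δ : ℝ} (hδ : 0 < δ) :
    ∃ ι : Ch k ℝ, IsMesh ι 0 b δ := by
  obtain ⟨N, hN⟩ := exists_N b hδ
  exact ⟨im k b N, im_isMesh hb (hN N le_rfl)⟩

/-! ### Cube chains -/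

/-- Small lists of `S`. -/
def SmS {E : Type} [PseudoMetricSpace E] (m : ℕ) (S : Set E) (δ : ℝ) (l : List E) : Prop :=
  l.length = m ∧ (∀ x ∈ l, x ∈ S) ∧ ∀ x ∈ l, ∀ y ∈ l, dist x y < δ

/-- Fine chain of the cube with boundary in the boundary of the cube. -/
structure IsCube (m : ℕ) (δ : ℝ) (c : Ch k (Fin m → ℝ)) : Prop where
  mem : c ∈ Sp k (SmS (m + 1) (cube m) δ)
  bd : bd c ∈ Sp k (SmS m (bdc m) δ)

theorem IsCube.ln {m : ℕ} {δ : ℝ} {c : Ch k (Fin m → ℝ)} (h : IsCube m δ c) :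
    c ∈ Sp k (Ln (m + 1)) := Sp_mono (fun _ hl => hl.1) h.mem

theorem sn_mem_cube {m : ℕ} {v : Fin m → ℝ} {t : ℝ} (hv : v ∈ cube m) (ht : t ∈ Icc (0 : ℝ) 1) :
    sn m (v, t) ∈ cube (m + 1) := by
  intro i
  refine Fin.lastCases ?_ (fun j => ?_) i
  · simpa [sn] using ht
  · simpa [sn] using hv j

theorem sn_mem_bdc {m : ℕ} {v : Fin m → ℝ} {t : ℝ} (hv : v ∈ bdc m) (ht : t ∈ Icc (0 : ℝ) 1) :
    sn m (v, t) ∈ bdc (m + 1) := by
  refine ⟨sn_mem_cube hv.1 ht, ?_⟩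
  obtain ⟨j, hj⟩ := hv.2
  exact ⟨j.castSucc, by simpa [sn] using hj⟩

theorem sn_mem_bdc' {m : ℕ} {v : Fin m → ℝ} {t : ℝ} (hv : v ∈ cube m) (ht : t = 0 ∨ t = 1) :
    sn m (v, t) ∈ bdc (m + 1) := by
  refine ⟨sn_mem_cube hv (by rcases ht with rfl | rfl <;> simp), Fin.last m, ?_⟩
  simpa [sn] using ht

/-- Small lists of `cube × [0, 1]`. -/
def SmP (m : ℕ) (S : Set (Fin (m + 1) → ℝ)) (δ δ' : ℝ) (q : ℕ) (l : List ((Fin m → ℝ) × ℝ)) :
    Prop :=
  l.length = q ∧ (∀ p ∈ l, sn m p ∈ S) ∧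
    ∀ p ∈ l, ∀ p' ∈ l, dist p.1 p'.1 < δ ∧ dist p.2 p'.2 < δ'

theorem sh_cube {m : ℕ} {δ δ' : ℝ} {c : Ch k (Fin m → ℝ)} (hc : IsCube m δ c) {ι : Ch k ℝ}
    (hι : IsMesh ι 0 1 δ') :
    sh c ι ∈ Sp k (SmP m (cube (m + 1)) δ δ' (m + 2)) ∧
      bd (sh c ι) ∈ Sp k (SmP m (bdc (m + 1)) δ δ' (m + 1)) := by
  constructor
  · refine sh_mem (fun s t l hs ht hl => ?_) hc.mem hι.mem
    refine ⟨?_, fun p hp => ?_, fun p hp p' hp' => ?_⟩
    · have h1 := hs.1
      have h2 := ht.1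
      have h3 := hl.1
      omega
    · exact sn_mem_cube (hs.2.1 _ (hl.2 p hp).1) (ht.2.1 _ (hl.2 p hp).2)
    · exact ⟨hs.2.2 _ (hl.2 p hp).1 _ (hl.2 p' hp').1, ht.2.2 _ (hl.2 p hp).2 _ (hl.2 p' hp').2⟩
  · rw [bd_sh (p := m) (q := 1) (by omega) hc.ln hι.ln]
    refine Submodule.add_mem _ ?_ (Submodule.smul_mem _ _ ?_)
    · refine sh_mem (fun s t l hs ht hl => ?_) hc.bd hι.mem
      refine ⟨?_, fun p hp => ?_, fun p hp p' hp' => ?_⟩
      · have h1 := hs.1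
        have h2 := ht.1
        have h3 := hl.1
        omega
      · exact sn_mem_bdc (hs.2.1 _ (hl.2 p hp).1) (ht.2.1 _ (hl.2 p hp).2)
      · exact ⟨hs.2.2 _ (hl.2 p hp).1 _ (hl.2 p' hp').1,
          ht.2.2 _ (hl.2 p hp).2 _ (hl.2 p' hp').2⟩
    · have hδ' : ∀ x : ℝ, dist x x < δ' ∨ ι = 0 := by
        intro x
        by_cases h0 : ι = 0
        · exact Or.inr h0
        · left
          obtain ⟨l, hl⟩ := Finsupp.support_nonempty_iff.2 h0
          have h1 : Msh 0 1 δ' l := hι.mem hl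
          obtain ⟨a, b, rfl⟩ := List.length_eq_two.1 h1.1
          rw [dist_self]
          have := h1.2.2 a (by simp) a (by simp)
          rwa [dist_self] at this
      by_cases h0 : ι = 0
      · rw [h0, map_zero, map_zero]
        exact Submodule.zero_mem _
      have hb : bd ι ∈ Sp k (fun l => ∃ t : ℝ, (t = 0 ∨ t = 1) ∧ l = [t]) := by
        rw [hι.bd]
        exact Submodule.sub_mem _ (single_mem ⟨1, Or.inr rfl, rfl⟩ _)
          (single_mem ⟨0, Or.inl rfl, rfl⟩ _)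
      refine sh_mem (fun s t l hs ht hl => ?_) hc.mem hb
      obtain ⟨x, hx, rfl⟩ := ht
      have hx' : ∀ p ∈ l, p.2 = x := fun p hp => by simpa using (hl.2 p hp).2
      refine ⟨?_, fun p hp => ?_, fun p hp p' hp' => ?_⟩
      · have h1 := hs.1
        have h3 := hl.1
        simp only [List.length_cons, List.length_nil] at h3
        omega
      · have := sn_mem_bdc' (hs.2.1 _ (hl.2 p hp).1) hx
        rw [← hx' p hp] at this
        exact this
      · refine ⟨hs.2.2 _ (hl.2 p hp).1 _ (hl.2 p' hp').1, ?_⟩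
        rw [hx' p hp, hx' p' hp']
        exact (hδ' x).resolve_right h0

theorem isCube_succ {m : ℕ} {δ : ℝ} {c : Ch k (Fin m → ℝ)} (hc : IsCube m δ c) {ι : Ch k ℝ}
    (hι : IsMesh ι 0 1 δ) : IsCube (m + 1) δ (mp (sn m) (sh c ι)) := by
  have h := sh_cube hc hι
  have key : ∀ (S : Set (Fin (m + 1) → ℝ)) (q : ℕ) (l : List ((Fin m → ℝ) × ℝ)),
      SmP m S δ δ q l → SmS q S δ (l.map (sn m)) := by
    intro S q l hl
    refine ⟨by rw [List.length_map]; exact hl.1, fun x hx => ?_, fun x hx y hy => ?_⟩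
    · obtain ⟨p, hp, rfl⟩ := List.mem_map.1 hx
      exact hl.2.1 p hp
    · obtain ⟨p, hp, rfl⟩ := List.mem_map.1 hx
      obtain ⟨p', hp', rfl⟩ := List.mem_map.1 hy
      have h1 := hl.2.2 p hp p' hp'
      have h0 : 0 < δ := dist_nonneg.trans_lt h1.1
      refine (dist_pi_lt_iff h0).2 fun i => ?_
      refine Fin.lastCases ?_ (fun j => ?_) i
      · simpa [sn] using h1.2
      · simpa [sn] using (dist_le_pi_dist p.1 p'.1 j).trans_lt h1.1
  refine ⟨map_mem _ (fun l hl => ?_) h.1, ?_⟩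
  · rw [mp_single]
    exact single_mem (key _ _ _ hl) _
  · rw [bd_mp]
    refine map_mem _ (fun l hl => ?_) h.2
    rw [mp_single]
    exact single_mem (key _ _ _ hl) _

/-- The cube chain. -/
noncomputable def Qc (ι : Ch k ℝ) : (m : ℕ) → Ch k (Fin m → ℝ)
  | 0 => single [fun _ => 0] 1
  | m + 1 => mp (sn m) (sh (Qc ι m) ι)

theorem Qc_zero (ι : Ch k ℝ) : Qc ι 0 = single [fun _ => 0] 1 := rfl

theorem Qc_succ (ι : Ch k ℝ) (m : ℕ) : Qc ι (m + 1) = mp (sn m) (sh (Qc ι m) ι) := rfl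

theorem isCube_Qc {δ : ℝ} (hδ : 0 < δ) {ι : Ch k ℝ} (hι : IsMesh ι 0 1 δ) :
    ∀ m, IsCube m δ (Qc ι m)
  | 0 => by
    constructor
    · refine single_mem (P := SmS (0 + 1) (cube 0) δ) ⟨rfl, fun x _ i => i.elim0,
        fun x hx y hy => ?_⟩ _
      rw [Subsingleton.elim x y, dist_self]
      exact hδ
    · have e : bd (Qc ι 0) = single [] 1 := by
        rw [Qc_zero, bd_single, one_smul, bdL_cons, bdL_nil, map_zero, sub_zero]
      rw [e]
      exact single_mem (P := SmS 0 (bdc 0) δ) ⟨rfl, by simp, by simp⟩ _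
  | m + 1 => isCube_succ (isCube_Qc hδ hι m) hι

/-! ### Evaluation of `W` -/

theorem ev_cupd_mesh (φ : ℝ → k) {a b δ : ℝ} {ι : Ch k ℝ} (hι : IsMesh ι a b δ) :
    ev (cupd [φ]) ι = φ b - φ a := by
  have h1 : ev (cupd [φ]) ι = ev (dl fun l : List ℝ => (l.map φ).sum) ι := by
    refine ev_congr (fun l hl => ?_) hι.ln
    obtain ⟨x, y, rfl⟩ := List.length_eq_two.1 hl
    rw [cupd_two, dl, bdL_cons, bdL_cons, bdL_nil]
    simp
  rw [h1, ev_dl, hι.bd, map_sub, ev_single, ev_single]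
  simp

theorem ev_W_sh (φ : ℝ → k) {m : ℕ} {c : Ch k (Fin m → ℝ)} (hc : c ∈ Sp k (Ln (m + 1)))
    {a b δ : ℝ} {ι : Ch k ℝ} (hι : IsMesh ι a b δ) :
    ev (W φ (m + 1)) (mp (sn m) (sh c ι)) = ev (W φ m) c * (φ b - φ a) := by
  rw [← ev_cupd_mesh φ hι]
  have h1 : ∀ s : List (Fin m → ℝ), s.length = m + 1 →
      ev (W φ (m + 1)) (mp (sn m) (sh (single s 1) ι)) = W φ m s * ev (cupd [φ]) ι := by
    intro s hs
    have := eq_of_mem (P := Ln 2)
      (F := ev (W φ (m + 1)) ∘ₗ mp (sn m) ∘ₗ (sh (k := k) (α := Fin m → ℝ) (β := ℝ)) (single s 1))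
      (G := W φ m s • ev (cupd [φ]))
      (fun t ht => by
        rw [LinearMap.comp_apply, LinearMap.comp_apply, sh_single, ev_W_Sh φ hs ht,
          LinearMap.smul_apply, ev_single, one_mul, smul_eq_mul]) hι.ln
    simpa only [LinearMap.comp_apply, LinearMap.smul_apply, smul_eq_mul] using this
  have := eq_of_mem (P := Ln (m + 1))
    (F := ev (W φ (m + 1)) ∘ₗ mp (sn m) ∘ₗ (sh (k := k) (α := Fin m → ℝ) (β := ℝ)).flip ι)
    (G := (ev (cupd [φ]) ι) • ev (W φ m))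
    (fun s hs => by
      rw [LinearMap.comp_apply, LinearMap.comp_apply, LinearMap.flip_apply, h1 s hs,
        LinearMap.smul_apply, ev_single, one_mul, smul_eq_mul, mul_comm]) hc
  rw [mul_comm]
  simpa only [LinearMap.comp_apply, LinearMap.flip_apply, LinearMap.smul_apply, smul_eq_mul]
    using this

theorem ev_W_Qc (φ : ℝ → k) {δ : ℝ} (hδ : 0 < δ) {ι : Ch k ℝ} (hι : IsMesh ι 0 1 δ) :
    ∀ m, ev (W φ m) (Qc ι m) = (φ 1 - φ 0) ^ m
  | 0 => by
    rw [Qc_zero, ev_single, one_mul, pow_zero, W, List.ofFn_zero, cupd_nil_one]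
  | m + 1 => by
    rw [Qc_succ, ev_W_sh φ (isCube_Qc hδ hι m).ln hι, ev_W_Qc φ hδ hι m, pow_succ]

theorem W_shift (m : ℕ) (l : List (Fin m → ℝ)) :
    W (χ₀ k) m (l.map fun v j => v j - 1 / 2) = W (fun x => χ₀ k (x - 1 / 2)) m l := by
  rw [W, W, ← cupd_map (fun (v : Fin m → ℝ) (j : Fin m) => v j - 1 / 2), List.map_ofFn]
  rfl

theorem chi_one : χ₀ k (1 - 1 / 2) = 1 := if_pos (by norm_num)

theorem chi_zero : χ₀ k (0 - 1 / 2) = 0 := if_neg (by norm_num)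

end Vale.Agent.P216.Tau
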