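import Vale.Agent.P216.H347.Tau2
import Vale.Agent.P216.N929.Ctr
import Mathlib.Analysis.Normed.Module.Connected

/-!
# P216, Theorem B, block [TAU] : the Thom cochain and the cycles of loops it detects
-/

open Set Finsupp BoundedContinuousFunction Vale.Agent.P216.Sl

namespace Vale.Agent.P216.Tau

set_option linter.unusedSectionVars false

variable {n : ℕ} {M : Type} [MetricSpace M] [CompactSpace M]

/-- The pair `(x, y)` or `(y, x)`. -/
def pr (b : Bool) (x y : M) : M × M := if b then (x, y) else (y, x)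

theorem continuous_pr {E : Type} [TopologicalSpace E] (b : Bool) {f g : E → M}
    (hf : Continuous f) (hg : Continuous g) : Continuous fun e => pr b (f e) (g e) := by
  cases b
  · exact hg.prodMk hf
  · exact hf.prodMk hg

theorem dist_pr (b : Bool) (x x' y : M) : dist (pr b x y) (pr b x' y) = dist x x' := by
  cases b
  · simp [pr, Prod.dist_eq]
  · simp [pr, Prod.dist_eq]

theorem pathConnected (hn : 1 ≤ n)
    (h : M ≃ₜ Metric.sphere (0 : EuclideanSpace ℝ (Fin (n + 1))) 1) (x y : M) :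
    Nonempty (Path x y) := by
  have h1 : IsPathConnected (Metric.sphere (0 : EuclideanSpace ℝ (Fin (n + 1))) 1) := by
    refine isPathConnected_sphere ?_ 0 zero_le_one
    rw [← Module.finrank_eq_rank, finrank_euclideanSpace_fin]
    exact_mod_cast (by omega : 1 < n + 1)
  have h2 : PathConnectedSpace (Metric.sphere (0 : EuclideanSpace ℝ (Fin (n + 1))) 1) :=
    isPathConnected_iff_pathConnectedSpace.1 h1
  obtain ⟨γ⟩ := h2.joined (h x) (h y)
  exact ⟨(γ.map h.symm.continuous).cast (by simp) (by simp)⟩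

/-- The evaluation at all pairs of points. -/
theorem eval_all (hn : 2 ≤ n) (h : M ≃ₜ Metric.sphere (0 : EuclideanSpace ℝ (Fin (n + 1))) 1)
    {ρ₁ : ℝ} (hρ : 0 < ρ₁) : ∃ (c d : ℝ) (H : Cst h (ρ₁ / 2) c d) (N : ℕ)
      (hN : 1 / ((N : ℝ) + 1) < d), ∀ (b : Bool) (q p : M), ∃ (G : (Fin n → ℝ) → M) (d₃ : ℝ),
      Continuous G ∧ (∀ θ ∈ bdc n, G θ = q) ∧ 0 < d₃ ∧ ∀ (k : Type) [Field k] (δ : ℝ), 0 < δ →
        δ ≤ d₃ → ∀ ι : Ch k ℝ, IsMesh ι 0 1 δ →
          ev (fun l => (tauS h k H hρ hN).f (l.map fun θ => pr b (G θ) p)) (Qc ι n) = 1 := by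
  obtain ⟨c, d, hc, hd, hfar, huc⟩ := consts h (half_pos hρ)
  have H : Cst h (ρ₁ / 2) c d := ⟨hc, hd, hfar, huc⟩
  obtain ⟨B, B', xm, xp, hB, hB', hBb, hBb', hne, hne'⟩ := H779B.stDeg n M h
  obtain ⟨d₁, hd₁, h1⟩ := spec_eval h (fun θ => pr true (B θ) xp)
    (continuous_pr true hB continuous_const) hne
  obtain ⟨d₁', hd₁', h1'⟩ := spec_eval h (fun θ => pr false (B' θ) xp)
    (continuous_pr false hB' continuous_const) hne'
  obtain ⟨N₀, hN₀⟩ := exists_N 1 (lt_min hd (lt_min hd₁ hd₁'))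
  have hN := hN₀ N₀ le_rfl
  have hNd : 1 / ((N₀ : ℝ) + 1) < d := hN.trans_le (min_le_left _ _)
  have hN1 : 1 / ((N₀ : ℝ) + 1) < d₁ := hN.trans_le ((min_le_right _ _).trans (min_le_left _ _))
  have hN1' : 1 / ((N₀ : ℝ) + 1) < d₁' := hN.trans_le ((min_le_right _ _).trans (min_le_right _ _))
  have he : 0 < min d (ρ₁ / 4) := lt_min hd (by linarith)
  -- the special pair, both orders
  have hsp : ∀ b : Bool, ∃ (G : (Fin n → ℝ) → M) (d₄ : ℝ), Continuous G ∧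
      (∀ θ ∈ bdc n, G θ = xm) ∧ 0 < d₄ ∧ ∀ (k : Type) [Field k] (δ : ℝ), 0 < δ →
        δ ≤ d₄ → ∀ ι : Ch k ℝ, IsMesh ι 0 1 δ →
          ev (fun l => (tauS h k H hρ hNd).f (l.map fun θ => pr b (G θ) xp)) (Qc ι n) = 1 := by
    have gen : ∀ (b : Bool) (G : (Fin n → ℝ) → M) (d₄ : ℝ), Continuous G →
        (∀ θ ∈ bdc n, G θ = xm) → 0 < d₄ → (∀ (k : Type) [Field k] (δ : ℝ), 0 < δ → δ ≤ d₄ →
          ∀ ι : Ch k ℝ, IsMesh ι 0 1 δ →
            ev (fun l => tau0 h k N₀ (l.map fun θ => pr b (G θ) xp)) (Qc ι n) = 1) →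
        ∃ (G : (Fin n → ℝ) → M) (d₄ : ℝ), Continuous G ∧
      (∀ θ ∈ bdc n, G θ = xm) ∧ 0 < d₄ ∧ ∀ (k : Type) [Field k] (δ : ℝ), 0 < δ →
        δ ≤ d₄ → ∀ ι : Ch k ℝ, IsMesh ι 0 1 δ →
          ev (fun l => (tauS h k H hρ hNd).f (l.map fun θ => pr b (G θ) xp)) (Qc ι n) = 1 := by
      intro b G d₄ hG hGb hd₄ hev
      obtain ⟨d₅, hd₅, hmod⟩ := modulus (isCompact_cube n) hG.continuousOn he
      refine ⟨G, min d₄ d₅, hG, hGb, lt_min hd₄ hd₅, fun k _ δ hδ0 hδ ι hι => ?_⟩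
      rw [← hev k δ hδ0 (hδ.trans (min_le_left _ _)) ι hι]
      refine ev_congr (fun l hl => ?_) (isCube_Qc hδ0 hι n).mem
      refine tauc_eq H hNd ?_ ⟨fun _ _ => mem_univ _, fun x hx y hy => ?_⟩
      · intro h0
        have h5 := congrArg List.length h0
        rw [List.length_map, hl.1] at h5
        simp at h5
      · obtain ⟨θ, hθ, rfl⟩ := List.mem_map.1 hx
        obtain ⟨θ', hθ', rfl⟩ := List.mem_map.1 hy
        rw [dist_pr]
        exact hmod θ (hl.2.1 θ hθ) θ' (hl.2.1 θ' hθ')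
          ((hl.2.2 θ hθ θ' hθ').trans_le (hδ.trans (min_le_right _ _)))
    intro b
    cases b
    · exact gen false B' d₁' hB' hBb' hd₁' fun k _ δ hδ0 hδ ι hι => h1' N₀ hN1' k δ hδ0 hδ ι hι
    · exact gen true B d₁ hB hBb hd₁ fun k _ δ hδ0 hδ ι hι => h1 N₀ hN1 k δ hδ0 hδ ι hι
  refine ⟨c, d, H, N₀, hNd, fun b q p => ?_⟩
  obtain ⟨G, d₄, hG, hGb, hd₄, hev⟩ := hsp b
  obtain ⟨γ⟩ := pathConnected (by omega) h xm q
  obtain ⟨γ'⟩ := pathConnected (by omega) h xp p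
  obtain ⟨Kb, hKb, hK0, hK1⟩ := exists_fam hG hGb γ
  obtain ⟨d₂, hd₂, hmv⟩ := move hn (K := fun x => pr b (Kb x) (γ'.extend x.2))
    (continuous_pr b hKb (γ'.continuous_extend.comp continuous_snd))
    (b := fun s => pr b (γ.extend s) (γ'.extend s))
    (fun θ hθ s hs => by simp only; rw [hK1 θ hθ s hs]) he
  refine ⟨fun θ => Kb (θ, 1), min d₄ d₂, hKb.comp (continuous_id.prodMk continuous_const),
    fun θ hθ => ?_, lt_min hd₄ hd₂, fun k _ δ hδ0 hδ ι hι => ?_⟩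
  · simp only
    rw [hK1 θ hθ 1 (by simp), Path.extend_one]
  · have hcube := isCube_Qc hδ0 hι n
    have h2 := hmv k (tauS h k H hρ hNd).f (tauS h k H hρ hNd).nrm (tauS h k H hρ hNd).coc δ
      (hδ.trans (min_le_right _ _)) (Qc ι n) hcube
    simp only [Path.extend_one, Path.extend_zero] at h2
    rw [h2, ← hev k δ hδ0 (hδ.trans (min_le_left _ _)) ι hι]
    refine ev_congr (fun l hl => ?_) hcube.mem
    congr 1
    refine List.map_congr_left fun θ hθ => ?_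
    rw [hK0 θ (hl.2.1 θ hθ)]

/-- `(w, t) ↦ (w t, p)` or `(p, w t)`. -/
def evb (b : Bool) (p : M) (x : (ℝ →ᵇ M) × ℝ) : M × M := pr b (x.1 x.2) p

theorem evb_true (p : M) : evb true p = N929.evp p := rfl

/-- **B36**: the cycles of loops at `q` detected by `∫ τ(w t, p)` and by `∫ τ(p, w t)`. -/
theorem loops (hn : 2 ≤ n) {ρ₀ : ℝ} (hρ₀ : 0 < ρ₀) (hseg : LS.UniqSeg M ρ₀) {q : M}
    {G : (Fin n → ℝ) → M} (hG : Continuous G) (hGb : ∀ θ ∈ bdc n, G θ = q) {e : ℝ} :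
    ∃ la > 0, ∀ s ≥ la, ∀ ε > 0, ∀ (k : Type) [Field k] (d₃ : ℝ), 0 < d₃ →
      ∃ (c : Ch k (Fin n → ℝ)) (z : Ch k (ℝ →ᵇ M)) (δ : ℝ) (ι' : Ch k ℝ), 0 < δ ∧ δ ≤ d₃ ∧
        IsMesh ι' 0 1 δ ∧ c = Qc ι' n ∧ N929.Cy (PS.P q q s) ε (n - 1) z ∧
        ∀ (b : Bool) (p : M) (f : List (M × M) → k), Nrm f → N929.Coc univ e n f →
          ∀ ι : Ch k ℝ, N929.Edge 0 s (min ε (e / 2)) ι → ε ≤ e / 2 →
            ev (fun l => f (l.map (evb b p))) (sh z ι) =
              ev (fun l => f (l.map fun θ => pr b (G θ) p)) c := by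
  obtain ⟨la, hla, a, ha, haP⟩ := stPoly M ρ₀ hρ₀ hseg n G q hG (by omega) hGb
  refine ⟨la, hla, fun s hs ε hε k _ d₃ hd₃ => ?_⟩
  obtain ⟨d₆, hd₆, hmod⟩ := modulus (isCompact_cube n) ha hε
  obtain ⟨ι', hι'⟩ := exists_isMesh k zero_le_one (lt_min hd₃ hd₆)
  have hδ0 : 0 < min d₃ d₆ := lt_min hd₃ hd₆
  have hc := isCube_Qc hδ0 hι' n
  set c := Qc ι' n with hcdef
  set σ : k := -(-1) ^ n with hσ
  have hσσ : σ * σ = 1 := by
    rw [hσ, neg_mul_neg, ← mul_pow]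
    simp
  refine ⟨c, σ • mp a (bd c), min d₃ d₆, ι', hδ0, min_le_left _ _, hι', rfl, ⟨?_, ?_⟩, ?_⟩
  · refine Submodule.smul_mem _ _ (map_mem (P := SmS n (bdc n) (min d₃ d₆)) _ (fun l hl => ?_)
      hc.bd)
    rw [mp_single]
    refine single_mem (P := fun l : List (ℝ →ᵇ M) => l.length = n - 1 + 1 ∧
      N929.Fine (PS.P q q s) ε l) ⟨by rw [List.length_map, hl.1]; omega, fun x hx => ?_,
      fun x hx y hy => ?_⟩ _
    · obtain ⟨θ, hθ, rfl⟩ := List.mem_map.1 hx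
      have h1 := hl.2.1 θ hθ
      have h2 := haP θ h1.1
      rw [hGb θ h1] at h2
      exact PS.P_mono hs h2
    · obtain ⟨θ, hθ, rfl⟩ := List.mem_map.1 hx
      obtain ⟨θ', hθ', rfl⟩ := List.mem_map.1 hy
      exact hmod θ (hl.2.1 θ hθ).1 θ' (hl.2.1 θ' hθ').1
        ((hl.2.2 θ hθ θ' hθ').trans_le (min_le_right _ _))
  · rw [map_smul, bd_mp, bd_bd, map_zero, smul_zero]
    exact Submodule.zero_mem _
  · intro b p f hf hcoc ι hι hεe
    rw [min_eq_left hεe] at hι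
    have hι2 : ι ∈ Sp k (Ln 2) := Sp_mono (fun l hl => hl.1) hι.1
    set K : (Fin n → ℝ) × ℝ → M × M := fun x => evb b p (a x.1, x.2) with hK
    have h1 : ev (dl f) (mp K (sh c ι)) = 0 := by
      rw [ev_mp]
      refine ev_zero_of (P := fun l => l.length = n + 2 ∧ ∀ x ∈ l, x.1 ∈ cube n ∧
        ∀ y ∈ l, dist x.1 y.1 < d₆ ∧ dist x.2 y.2 < ε) (fun l hl => ?_)
        (sh_mem (fun s t l hs ht hl => ?_) hc.mem hι.1)
      · refine hcoc _ (by rw [List.length_map, hl.1]) ⟨fun _ _ => mem_univ _,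
          fun z hz z' hz' => ?_⟩
        obtain ⟨x, hx, rfl⟩ := List.mem_map.1 hz
        obtain ⟨y, hy, rfl⟩ := List.mem_map.1 hz'
        rw [hK]
        simp only [evb]
        rw [dist_pr]
        have h2 := (hl.2 x hx).2 y hy
        have h3 := hmod x.1 (hl.2 x hx).1 y.1 (hl.2 y hy).1 h2.1
        have h4 := N929.dist_ev_le (w := a x.1) (w' := a y.1) (σ := x.2) (σ' := y.2)
          (haP x.1 (hl.2 x hx).1).1
        have h5 := h2.2
        rw [Real.dist_eq] at h5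
        linarith
      · refine ⟨?_, fun x hx => ⟨hs.2.1 _ (hl.2 x hx).1, fun y hy =>
          ⟨(hs.2.2 _ (hl.2 x hx).1 _ (hl.2 y hy).1).trans_le (min_le_right _ _),
            ht.2.2 _ (hl.2 x hx).2 _ (hl.2 y hy).2⟩⟩⟩
        have h1 := hl.1
        have h2 := hs.1
        have h3 := ht.1
        omega
    have h2 := stokes f hc.ln hι2 hι.2 K h1
    -- the end `t = s`
    have h3 : ev f (mp (fun x => K (x, s)) c) =
        ev (fun l => f (l.map fun θ => pr b (G θ) p)) c := by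
      rw [ev_mp]
      refine ev_congr (fun l hl => ?_) hc.mem
      congr 1
      refine List.map_congr_left fun θ hθ => ?_
      rw [hK]
      simp only [evb]
      rw [PS.eq_right (haP θ (hl.2.1 θ hθ)) hs]
    -- the end `t = 0`
    have h4 : ev f (mp (fun x => K (x, 0)) c) = 0 := by
      rw [ev_mp]
      refine ev_zero_of (fun l hl => ?_) hc.mem
      have h5 : l.map (fun x => K (x, 0)) = l.map fun _ => pr b q p :=
        List.map_congr_left fun θ hθ => by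
          rw [hK]
          simp only [evb]
          rw [PS.eq_left (haP θ (hl.2.1 θ hθ)) le_rfl]
      rw [h5]
      refine hf _ fun hch => ?_
      have h6 : l.length = n + 1 := hl.1
      rcases l with _ | ⟨x, _ | ⟨y, l⟩⟩
      · simp at h6
      · simp only [List.length_cons, List.length_nil] at h6
        omega
      · rw [List.map_cons, List.map_cons, List.isChain_cons_cons] at hch
        exact hch.1 rfl
    rw [h3, h4, sub_zero] at h2
    have h5 : ev (fun l => f (l.map (evb b p))) (sh (σ • mp a (bd c)) ι) =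
        σ * ev f (mp K (sh (bd c) ι)) := by
      rw [map_smul, LinearMap.smul_apply, map_smul, smul_eq_mul]
      have h6 := sh_mp (k := k) a (id : ℝ → ℝ) (bd c) ι
      rw [mp_id] at h6
      rw [h6, ev_mp, ev_mp]
      congr 1
      refine ev_congr (P := fun _ => True) (fun l _ => ?_) (by simp [Finsupp.mem_supported])
      rw [List.map_map]
      rfl
    rw [h5, h2]
    have h7 : (-1 : k) ^ n * (-1) ^ n = 1 := by
      rw [← mul_pow]
      simp
    rw [hσ]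
    linear_combination (ev (fun l => f (l.map fun θ => pr b (G θ) p)) c) * h7

/-- **[TAU] = B34 + B36.** -/
theorem exists_tau (hn : 2 ≤ n) (h : M ≃ₜ Metric.sphere (0 : EuclideanSpace ℝ (Fin (n + 1))) 1)
    {ρ₀ ρ₁ : ℝ} (hρ₀ : 0 < ρ₀) (hseg : LS.UniqSeg M ρ₀) (hρ₁ : 0 < ρ₁) :
    ∃ (e₀ : ℝ) (la : M → M → ℝ), 0 < e₀ ∧ (∀ q p, 0 < la q p) ∧
      ∀ (k : Type) [Field k], ∃ τ : N929.Tau k M n ρ₁, τ.ε = e₀ ∧
        ∀ (b : Bool) (q p : M) (s : ℝ), la q p ≤ s → ∀ ε, 0 < ε → ε ≤ e₀ / 2 →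
          ∃ a : Ch k (ℝ →ᵇ M), N929.Cy (PS.P q q s) ε (n - 1) a ∧
            ∀ ι : Ch k ℝ, N929.Edge 0 s ε ι →
              ev (fun l => τ.f (l.map (evb b p))) (sh a ι) = 1 := by
  obtain ⟨c, d, H, N, hN, hev⟩ := eval_all hn h hρ₁
  have he : 0 < min d (ρ₁ / 4) := lt_min H.hd (by linarith)
  choose G d₃ hG hGb hd₃ hval using hev
  have hl : ∀ b q p, _ := fun b q p => loops hn hρ₀ hseg (hG b q p) (hGb b q p)
    (e := min d (ρ₁ / 4))
  choose la hla hloop using hl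
  refine ⟨min d (ρ₁ / 4), fun q p => max (la true q p) (la false q p), he,
    fun q p => lt_max_of_lt_left (hla _ q p), fun k _ => ⟨tauS h k H hρ₁ hN, rfl, ?_⟩⟩
  intro b q p s hs ε hε hεe
  have hs' : la b q p ≤ s := by
    cases b
    · exact (le_max_right _ _).trans hs
    · exact (le_max_left _ _).trans hs
  obtain ⟨c', z, δ, ι', hδ0, hδ, hι', rfl, hz, hzev⟩ := hloop b q p s hs' ε hε k (d₃ b q p)
    (hd₃ b q p)
  refine ⟨z, hz, fun ι hι => ?_⟩
  rw [hzev b p (tauS h k H hρ₁ hN).f (tauS h k H hρ₁ hN).nrm (tauS h k H hρ₁ hN).coc ι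
    (by rwa [min_eq_left hεe]) hεe]
  exact hval b q p k δ hδ0 hδ ι' hι'

end Vale.Agent.P216.Tau
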