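import Vale.Agent.P216.H347.Tau1
import Vale.Agent.P216.H779B.Deg
import Vale.Agent.P216.H951.Poly

/-!
# P216, Theorem B, block [TAU] : evaluation of the Thom cochain on cubes
-/

open Set Finsupp Vale.Agent.P216.Sl

namespace Vale.Agent.P216.Tau

set_option linter.unusedSectionVars false

variable {n : ℕ} {M : Type} [MetricSpace M] [CompactSpace M]

/-! ### Topology of the cube -/

theorem isClosed_bdc (m : ℕ) : IsClosed (bdc m) := by
  have h1 : IsClosed (cube m) := (isCompact_cube m).isClosed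
  have h2 : IsClosed {v : Fin m → ℝ | ∃ i, v i = 0 ∨ v i = 1} := by
    have : {v : Fin m → ℝ | ∃ i, v i = 0 ∨ v i = 1} =
        ⋃ i : Fin m, ({v : Fin m → ℝ | v i = 0} ∪ {v | v i = 1}) := by
      ext v
      simp
    rw [this]
    refine isClosed_iUnion_of_finite fun i => ?_
    exact (isClosed_eq (continuous_apply i) continuous_const).union
      (isClosed_eq (continuous_apply i) continuous_const)
  exact h1.inter h2

theorem continuous_sn (m : ℕ) : Continuous (sn m) := by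
  refine continuous_pi fun i => ?_
  refine Fin.lastCases ?_ (fun j => ?_) i
  · simp only [sn, Fin.snoc_last]
    exact continuous_snd
  · simp only [sn, Fin.snoc_castSucc]
    exact (continuous_apply j).comp continuous_fst

theorem sn_cube {m : ℕ} {x : (Fin m → ℝ) × ℝ} (hx : sn m x ∈ cube (m + 1)) :
    x.1 ∈ cube m ∧ x.2 ∈ Icc (0 : ℝ) 1 := by
  refine ⟨fun i => ?_, ?_⟩
  · have := hx i.castSucc
    simpa [sn] using this
  · have := hx (Fin.last m)
    simpa [sn] using this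

theorem init_sn {m : ℕ} (x : (Fin m → ℝ) × ℝ) : Fin.init (sn m x) = x.1 := by
  simp [sn]

theorem sn_last {m : ℕ} (x : (Fin m → ℝ) × ℝ) : sn m x (Fin.last m) = x.2 := by
  simp [sn]

theorem mp_id {k : Type} [Field k] {α : Type} (c : Ch k α) : mp id c = c := by
  have := lin_ext_apply (f := mp (k := k) (id : α → α)) (g := LinearMap.id)
    (fun l => by rw [mp_single, List.map_id]; rfl) c
  simpa using this

/-! ### The special pair -/

theorem spec_eval (h : M ≃ₜ Metric.sphere (0 : EuclideanSpace ℝ (Fin (n + 1))) 1)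
    (G : (Fin n → ℝ) → M × M) (hG : Continuous G)
    (hne : ∀ v ∈ bdc (n + 1), ∀ s ∈ Icc (0 : ℝ) 1,
      (1 - s) • Fh h (G (Fin.init v), v (Fin.last n)) + s • (fun j => v j - 1 / 2) ≠ 0) :
    ∃ d₁ > 0, ∀ N : ℕ, 1 / ((N : ℝ) + 1) < d₁ → ∀ (k : Type) [Field k] (δ : ℝ), 0 < δ → δ ≤ d₁ →
      ∀ ι : Ch k ℝ, IsMesh ι 0 1 δ → ev (fun l => tau0 h k N (l.map G)) (Qc ι n) = 1 := by
  set K : ((Fin n → ℝ) × ℝ) × ℝ → (Fin (n + 1) → ℝ) := fun x =>
    (1 - x.2) • Fh h (G x.1.1, x.1.2) + x.2 • (fun j => sn n x.1 j - 1 / 2) with hKdef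
  have hK : Continuous K := by
    have h1 : Continuous fun x : ((Fin n → ℝ) × ℝ) × ℝ => Fh h (G x.1.1, x.1.2) :=
      (continuous_Fh h).comp ((hG.comp (continuous_fst.comp continuous_fst)).prodMk
        (continuous_snd.comp continuous_fst))
    have h2 : Continuous fun x : ((Fin n → ℝ) × ℝ) × ℝ => fun j => sn n x.1 j - 1 / 2 :=
      continuous_pi fun j => (((continuous_apply j).comp (continuous_sn n)).comp
        continuous_fst).sub continuous_const
    exact ((continuous_const.sub continuous_snd).smul h1).add (continuous_snd.smul h2)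
  set S : Set (((Fin n → ℝ) × ℝ) × ℝ) := (cube n ×ˢ Icc (0 : ℝ) 1) ×ˢ Icc (0 : ℝ) 1 with hSdef
  have hS : IsCompact S := ((isCompact_cube n).prod isCompact_Icc).prod isCompact_Icc
  have hB : IsClosed {x : ((Fin n → ℝ) × ℝ) × ℝ | sn n x.1 ∈ bdc (n + 1)} :=
    (isClosed_bdc (n + 1)).preimage ((continuous_sn n).comp continuous_fst)
  obtain ⟨c₁, hc₁, hlow⟩ := lower (hS.inter_right hB) hK.continuousOn (fun x hx => by
    have := hne (sn n x.1) hx.2 x.2 hx.1.2
    rw [init_sn, sn_last] at this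
    exact this)
  obtain ⟨d₁, hd₁, hmod⟩ := modulus hS hK.continuousOn (half_pos hc₁)
  refine ⟨d₁, hd₁, fun N hN k _ δ hδ0 hδ ι hι => ?_⟩
  have hι₁ : IsMesh (im k 1 N) 0 1 d₁ := im_isMesh zero_le_one hN
  have hc := isCube_Qc hδ0 hι n
  set c := Qc ι n with hcdef
  have hC := sh_cube hc hι₁
  set C := sh c (im k 1 N) with hCdef
  set F : List (Fin (n + 1) → ℝ) → k := W (χ₀ k) (n + 1) with hF
  have hCL : C ∈ Sp k (Ln (n + 1 + 1)) := Sp_mono (fun l hl => hl.1) hC.1
  -- the homotopy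
  have hb : ∀ (q : ℕ) (T : Set (Fin (n + 1) → ℝ)) (hT : T ⊆ cube (n + 1))
      (s : List ((Fin n → ℝ) × ℝ)) (t : List ℝ) (l : List (((Fin n → ℝ) × ℝ) × ℝ)),
      SmP n T δ d₁ q s → Msh 0 1 d₁ t → Gr s t l →
      l.length = q + 1 ∧ (∀ x ∈ l, x ∈ S ∧ sn n x.1 ∈ T) ∧ ∀ x ∈ l, ∀ y ∈ l, dist x y < d₁ := by
    intro q T hT s t l hs ht hl
    refine ⟨?_, fun x hx => ?_, fun x hx y hy => ?_⟩
    · have h1 := hl.1
      have h2 := hs.1
      have h3 := ht.1
      omega
    · have h1 := hs.2.1 _ (hl.2 x hx).1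
      have h2 := sn_cube (hT h1)
      exact ⟨⟨⟨h2.1, h2.2⟩, ht.2.1 _ (hl.2 x hx).2⟩, h1⟩
    · have h1 := hs.2.2 _ (hl.2 x hx).1 _ (hl.2 y hy).1
      have h2 := ht.2.2 _ (hl.2 x hx).2 _ (hl.2 y hy).2
      exact max_lt (max_lt (h1.1.trans_le hδ) h1.2) h2
  have key : ev F (mp (fun x => K (x, 1)) C) = ev F (mp (fun x => K (x, 0)) C) := by
    refine hom F hCL hι₁.ln hι₁.bd K ?_ ?_
    · have : mp K (sh C (im k 1 N)) ∈ Sp k (Ln (n + 1 + 2)) := by
        refine map_mem (P := Ln (n + 3)) _ (fun l hl => ?_) ?_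
        · rw [mp_single]
          exact single_Ln (by rw [List.length_map]; exact hl) _
        · exact sh_mem (fun s t l hs ht hl => (hb _ _ subset_rfl s t l hs ht hl).1) hC.1 hι₁.mem
      exact ev_dl_W _ this
    · rw [ev_mp]
      refine ev_zero_of (P := fun l => l.length = n + 2 ∧
        (∀ x ∈ l, x ∈ S ∧ sn n x.1 ∈ bdc (n + 1)) ∧ ∀ x ∈ l, ∀ y ∈ l, dist x y < d₁)
        (fun l hl => ?_) (sh_mem (fun s t l hs ht hl => hb _ _ (fun v hv => hv.1) s t l hs ht hl)
          hC.2 hι₁.mem)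
      obtain ⟨x, l', rfl⟩ : ∃ x l', l = x :: l' := by
        rcases l with _ | ⟨x, l'⟩
        · simp at hl
        · exact ⟨x, l', rfl⟩
      refine W_zero (ε := c₁ / 2) (half_pos hc₁) ?_
        (List.mem_map_of_mem (f := K) (List.mem_cons_self (a := x))) ?_
      · intro a ha b hb
        obtain ⟨p, hp, rfl⟩ := List.mem_map.1 ha
        obtain ⟨q, hq, rfl⟩ := List.mem_map.1 hb
        exact hmod p (hl.2.1 p hp).1 q (hl.2.1 q hq).1 (hl.2.2 p hp q hq)
      · have := hlow x ⟨(hl.2.1 x List.mem_cons_self).1, (hl.2.1 x List.mem_cons_self).2⟩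
        linarith
  -- the two ends
  have e0 : ev (fun l => tau0 h k N (l.map G)) c = ev F (mp (fun x => K (x, 0)) C) := by
    rw [← ev_mp (tau0 h k N) G, tau0, ev_fib]
    have h1 := sh_mp (k := k) G (id : ℝ → ℝ) c (im k 1 N)
    rw [mp_id] at h1
    rw [h1, ev_mp, ev_mp]
    refine ev_congr (P := fun _ => True) (fun l _ => ?_) (by simp [Finsupp.mem_supported])
    rw [List.map_map, hF]
    congr 1
    refine List.map_congr_left fun x _ => ?_
    simp [hKdef, Prod.map]
  have e1 : ev F (mp (fun x => K (x, 1)) C) = 1 := by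
    rw [ev_mp]
    have h1 : ev (fun l => F (l.map fun x => K (x, 1))) C =
        ev (W (fun x => χ₀ k (x - 1 / 2)) (n + 1)) (mp (sn n) C) := by
      rw [ev_mp]
      refine ev_congr (P := fun _ => True) (fun l _ => ?_) (by simp [Finsupp.mem_supported])
      rw [← W_shift, List.map_map, hF]
      congr 1
      refine List.map_congr_left fun x _ => ?_
      simp [hKdef]
    rw [h1, hCdef, ev_W_sh _ hc.ln hι₁, hcdef, ev_W_Qc _ hδ0 hι, chi_one, chi_zero, sub_zero,
      one_pow, one_mul]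
  rw [e0, ← key, e1]

/-! ### Moving the pair -/

theorem ev_snd_zero {k : Type} [Field k] {α β : Type} {f : List β → k} (hf : Nrm f) {p q : ℕ}
    {c : Ch k α} (hc : c ∈ Sp k (Ln p)) {c' : Ch k β} (hc' : c' ∈ Sp k (Ln q)) (hp : 2 ≤ p) :
    ev (fun l : List (α × β) => f (l.map Prod.snd)) (sh c c') = 0 := by
  have h1 : ∀ s : List α, s.length = p → ∀ t : List β, t.length = q →
      ev (fun l : List (α × β) => f (l.map Prod.snd)) (Sh s t) = (0 : k) := by
    intro s hs t ht
    have h2 := Sh_mem (k := k) _ s t rfl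
    have h3 := Sh_chain_snd (k := k) _ s t rfl
    have h4 : (Sh s t : Ch k (α × β)) ∈ Sp k (fun l => Gr s t l ∧
        ∀ j, ((l.drop j).map Prod.snd).IsChain (· ≠ ·) → l.length ≤ t.length + j) := by
      rw [Finsupp.mem_supported] at h2 h3 ⊢
      exact fun l hl => ⟨h2 hl, h3 hl⟩
    refine ev_zero_of (fun l hl => hf _ fun hch => ?_) h4
    have h5 := hl.2 0 (by simpa using hch)
    have h6 := hl.1.1
    omega
  have h2 : ∀ s : List α, s.length = p →
      ev (fun l : List (α × β) => f (l.map Prod.snd)) (sh (single s 1) c') = (0 : k) := by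
    intro s hs
    have := eq_of_mem (P := Ln q)
      (F := ev (fun l : List (α × β) => f (l.map Prod.snd)) ∘ₗ (sh (k := k) (single s 1)))
      (G := 0) (fun t ht => by
        rw [LinearMap.comp_apply, sh_single, LinearMap.zero_apply]
        exact h1 s hs t ht) hc'
    simpa using this
  have := eq_of_mem (P := Ln p)
    (F := ev (fun l : List (α × β) => f (l.map Prod.snd)) ∘ₗ
      (sh (k := k) (α := α) (β := β)).flip c')
    (G := 0) (fun s hs => by
      rw [LinearMap.comp_apply, LinearMap.flip_apply, LinearMap.zero_apply]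
      exact h2 s hs) hc
  simpa using this

theorem move (hn : 2 ≤ n) {K : (Fin n → ℝ) × ℝ → M × M} (hK : Continuous K) {b : ℝ → M × M}
    (hb : ∀ θ ∈ bdc n, ∀ s ∈ Icc (0 : ℝ) 1, K (θ, s) = b s) {e : ℝ} (he : 0 < e) :
    ∃ d₂ > 0, ∀ (k : Type) [Field k] (f : List (M × M) → k), Nrm f → N929.Coc univ e n f →
      ∀ δ ≤ d₂, ∀ c : Ch k (Fin n → ℝ), IsCube n δ c →
      ev (fun l => f (l.map fun θ => K (θ, 1))) c = ev (fun l => f (l.map fun θ => K (θ, 0))) c := by
  have hS : IsCompact (cube n ×ˢ Icc (0 : ℝ) 1) := (isCompact_cube n).prod isCompact_Icc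
  obtain ⟨d₂, hd₂, hmod⟩ := modulus hS hK.continuousOn he
  refine ⟨d₂, hd₂, fun k _ f hf hcoc δ hδ c hc => ?_⟩
  obtain ⟨ι, hι⟩ := exists_isMesh k zero_le_one hd₂
  have key := hom f hc.ln hι.ln hι.bd K ?_ ?_
  · rwa [ev_mp, ev_mp] at key
  · rw [ev_mp]
    refine ev_zero_of (P := fun l => l.length = n + 2 ∧ (∀ x ∈ l, x ∈ cube n ×ˢ Icc (0 : ℝ) 1) ∧
      ∀ x ∈ l, ∀ y ∈ l, dist x y < d₂) (fun l hl => ?_)
      (sh_mem (fun s t l hs ht hl => ?_) hc.mem hι.mem)
    · refine hcoc _ (by rw [List.length_map, hl.1]) ⟨fun _ _ => mem_univ _, fun a ha a' ha' => ?_⟩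
      obtain ⟨x, hx, rfl⟩ := List.mem_map.1 ha
      obtain ⟨y, hy, rfl⟩ := List.mem_map.1 ha'
      exact hmod x (hl.2.1 x hx) y (hl.2.1 y hy) (hl.2.2 x hx y hy)
    · refine ⟨?_, fun x hx => ⟨hs.2.1 _ (hl.2 x hx).1, ht.2.1 _ (hl.2 x hx).2⟩,
        fun x hx y hy => max_lt ((hs.2.2 _ (hl.2 x hx).1 _ (hl.2 y hy).1).trans_le hδ)
          (ht.2.2 _ (hl.2 x hx).2 _ (hl.2 y hy).2)⟩
      have h1 := hl.1
      have h2 := hs.1
      have h3 := ht.1
      omega
  · have h1 : ev f (mp K (sh (bd c) ι)) =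
        ev (fun l : List ((Fin n → ℝ) × ℝ) => f ((l.map Prod.snd).map b)) (sh (bd c) ι) := by
      rw [ev_mp]
      refine ev_congr (P := fun l => ∀ x ∈ l, x.1 ∈ bdc n ∧ x.2 ∈ Icc (0 : ℝ) 1) (fun l hl => ?_)
        (sh_mem (fun s t l hs ht hl x hx => ⟨hs.2.1 _ (hl.2 x hx).1, ht.2.1 _ (hl.2 x hx).2⟩)
          hc.bd hι.mem)
      rw [List.map_map]
      congr 1
      refine List.map_congr_left fun x hx => ?_
      exact hb x.1 (hl x hx).1 x.2 (hl x hx).2
    rw [h1]
    exact ev_snd_zero (f := fun l : List ℝ => f (l.map b)) (hf.map b)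
      (Sp_mono (fun l hl => hl.1) hc.bd) hι.ln hn

/-! ### Moving the base point of the degree one map -/

theorem mem_bdc_of_norm {v : Fin n → ℝ} (hv : ‖v‖ = 1 / 2) : (fun i => 1 / 2 + v i) ∈ bdc n := by
  have h1 : ∀ i, |v i| ≤ 1 / 2 := fun i => by
    have := norm_le_pi_norm v i
    rwa [hv] at this
  refine ⟨fun i => ?_, ?_⟩
  · have := abs_le.1 (h1 i)
    constructor <;> linarith
  · by_contra hcon
    push Not at hcon
    have : ‖v‖ < 1 / 2 := (pi_norm_lt_iff (by norm_num)).2 fun i => by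
      refine lt_of_le_of_ne (h1 i) fun h2 => ?_
      rw [Real.norm_eq_abs] at h2
      rcases abs_eq (by norm_num : (0 : ℝ) ≤ 1 / 2) |>.1 h2 with h3 | h3
      · exact (hcon i).2 (by rw [h3]; norm_num)
      · exact (hcon i).1 (by rw [h3]; norm_num)
    linarith

theorem exists_fam {B : (Fin n → ℝ) → M} (hB : Continuous B) {xm q : M}
    (hBb : ∀ θ ∈ bdc n, B θ = xm) (γ : Path xm q) :
    ∃ Kb : (Fin n → ℝ) × ℝ → M, Continuous Kb ∧ (∀ θ ∈ cube n, Kb (θ, 0) = B θ) ∧
      ∀ θ ∈ bdc n, ∀ s ∈ Icc (0 : ℝ) 1, Kb (θ, s) = γ.extend s := by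
  have hphi : Continuous fun θ : Fin n → ℝ => ‖fun i => θ i - 1 / 2‖ :=
    (continuous_pi fun i => (continuous_apply i).sub continuous_const).norm
  have hhalf : ∀ θ ∈ bdc n, ‖fun i => θ i - 1 / 2‖ = 1 / 2 := fun θ hθ => by
    have := H779B.rr_eq_one hθ
    rw [H779B.rr] at this
    linarith
  refine ⟨fun x => if (1 + x.2) * ‖fun i => x.1 i - 1 / 2‖ ≤ 1 / 2 then
      B fun i => 1 / 2 + (1 + x.2) * (x.1 i - 1 / 2)
    else γ.extend (2 * ((1 + x.2) * ‖fun i => x.1 i - 1 / 2‖ - 1 / 2)), ?_, ?_, ?_⟩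
  · have h1 : Continuous fun x : (Fin n → ℝ) × ℝ => (1 + x.2) * ‖fun i => x.1 i - 1 / 2‖ :=
      (continuous_const.add continuous_snd).mul (hphi.comp continuous_fst)
    refine Continuous.if_le ?_ ?_ h1 continuous_const ?_
    · refine hB.comp (continuous_pi fun i => ?_)
      exact continuous_const.add ((continuous_const.add continuous_snd).mul
        (((continuous_apply i).comp continuous_fst).sub continuous_const))
    · exact γ.continuous_extend.comp (continuous_const.mul (h1.sub continuous_const))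
    · intro x hx
      rw [hx, sub_self, mul_zero, Path.extend_zero]
      refine hBb _ ?_
      have h2 : (fun i => 1 / 2 + (1 + x.2) * (x.1 i - 1 / 2)) =
          fun i => 1 / 2 + ((1 + x.2) • fun i => x.1 i - 1 / 2) i := rfl
      rw [h2]
      refine mem_bdc_of_norm ?_
      have h3 : 0 ≤ 1 + x.2 := by
        by_contra hcon
        have h4 : (1 + x.2) * ‖fun i => x.1 i - 1 / 2‖ ≤ 0 :=
          mul_nonpos_of_nonpos_of_nonneg (by linarith) (norm_nonneg _)
        linarith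
      rw [norm_smul, Real.norm_of_nonneg h3, hx]
  · intro θ hθ
    have h1 : ‖fun i => θ i - 1 / 2‖ ≤ 1 / 2 := by
      have := H779B.rr_le_one hθ
      rw [H779B.rr] at this
      linarith
    simp only [add_zero, one_mul]
    rw [if_pos h1]
    congr 1
    ext i
    ring
  · intro θ hθ s hs
    simp only
    rw [hhalf θ hθ]
    split_ifs with h1
    · have h2 : s = 0 := by linarith [hs.1]
      rw [h2, Path.extend_zero]
      simp only [add_zero, one_mul]
      have : (fun i => 1 / 2 + (θ i - 1 / 2)) = θ := by ext i; ring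
      rw [this]
      exact hBb θ hθ
    · congr 1
      ring

end Vale.Agent.P216.Tau
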