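import Vale.Agent.P216.N929.Ctr
import Vale.Agent.P216.H347.Tau2
import Vale.Agent.P216.H311.Assoc
import Vale.Agent.P216.H311.Points
import Vale.Agent.P216.H250.Pi0P
import Vale.Agent.P216.H787.Fib

/-!
# The crossing lemma `N929.Cross`: paths and homotopies
-/

open Finsupp Set BoundedContinuousFunction Topology

namespace Vale.Agent.P216.Crs

open Vale.Agent.P216.Sl Vale.Agent.P216.PS Vale.Agent.P216.N929

variable {M : Type} [MetricSpace M] [CompactSpace M] {k : Type} [Field k]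

/-! ### Paths -/

/-- Associativity of the concatenation. -/
theorem cat_assoc' {x₀ p q q' : M} {c ℓ s : ℝ} {w v α : ℝ →ᵇ M} (hc : 0 ≤ c) (hℓ : 0 ≤ ℓ)
    (hs : 0 ≤ s) (hw : w ∈ P x₀ p c) (hv : v ∈ P p q ℓ) (hα : α ∈ P q q' s) :
    cat (c + ℓ) (cat c w v) α = cat c w (cat ℓ v α) := by
  have m1 := cat_mem hc hℓ hw hv
  have m2 := cat_mem hℓ hs hv hα
  have h1 : w c = v 0 := by rw [eq_right hw le_rfl, eq_left hv le_rfl]
  have h2 : cat c w v (c + ℓ) = α 0 := by rw [eq_right m1 le_rfl, eq_left hα le_rfl]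
  have h3 : v ℓ = α 0 := by rw [eq_right hv le_rfl, eq_left hα le_rfl]
  have h4 : w c = cat ℓ v α 0 := by rw [eq_right hw le_rfl, eq_left m2 le_rfl]
  ext u
  rw [cat_apply m1.1 hα.1 h2, cat_apply hw.1 m2.1 h4]
  rcases le_total u c with hu | hu
  · rw [catf_left (by linarith), catf_left hu, cat_apply hw.1 hv.1 h1, catf_left hu]
  rcases le_total u (c + ℓ) with hu' | hu'
  · rw [catf_left hu', catf_right h4 hu, cat_apply hw.1 hv.1 h1, catf_right h1 hu,
      cat_apply hv.1 hα.1 h3, catf_left (by linarith)]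
  · rw [catf_right h2 hu', catf_right h4 hu, cat_apply hv.1 hα.1 h3,
      catf_right h3 (by linarith)]
    congr 1
    ring

theorem splice_cat {x₀ p y y' : M} {c T σ r ρ₀ : ℝ} {w x : ℝ →ᵇ M} (hseg : LS.UniqSeg M ρ₀)
    (hr : 0 < r) (hrρ : r < ρ₀) (hc : 0 ≤ c) (hT : 0 ≤ T) (hw : w ∈ P x₀ p c)
    (hx : x ∈ P p y' T) (hσ : 0 ≤ σ) (hd : dist (x σ) y ≤ r) :
    splice r (cat c w x) (cst y) (c + σ) 0 = cat c w (splice r x (cst y) σ 0) := by
  have m1 := cat_mem hc hT hw hx
  have h1 : w c = x 0 := by rw [eq_right hw le_rfl, eq_left hx le_rfl]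
  have e1 : cat c w x (c + σ) = x σ := by
    rw [cat_apply hw.1 hx.1 h1, catf_right h1 (by linarith), add_sub_cancel_left]
  have hd' : dist (x σ) (cst y 0) ≤ r := by rwa [cst_apply]
  have hd1 : dist (cat c w x (c + σ)) (cst y 0) ≤ r := by rwa [e1, cst_apply]
  have m2 : splice r x (cst y) σ 0 ∈ P p y (σ + r + (0 - 0)) :=
    splice_mem hseg hr hrρ hx.1 (lip_cst y) hd' hσ le_rfl hx.2.1 (fun _ _ => rfl)
  have h4 : w c = splice r x (cst y) σ 0 0 := by rw [eq_right hw le_rfl, eq_left m2 le_rfl]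
  ext u
  rw [splice_apply hseg hr hrρ m1.1 (lip_cst y) hd1, cat_apply hw.1 m2.1 h4]
  rcases le_total u c with hu | hu
  · rw [catf_left hu, spl_left (by linarith), cat_apply hw.1 hx.1 h1, catf_left hu]
  rw [catf_right h4 hu, splice_apply hseg hr hrρ hx.1 (lip_cst y) hd']
  rcases le_total u (c + σ) with hu' | hu'
  · rw [spl_left hu', spl_left (by linarith), cat_apply hw.1 hx.1 h1, catf_right h1 hu]
  rcases le_total u (c + σ + r) with hu'' | hu''
  · rw [spl_mid hu' hu'', spl_mid (by linarith) (by linarith), e1]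
    congr 2
    ring
  · rw [spl_right hr hu'', spl_right hr (by linarith), cst_apply, cst_apply]

/-- The concatenation with a constant path. -/
theorem cat_cst {x₀ p : M} {c : ℝ} {w : ℝ →ᵇ M} (hw : w ∈ P x₀ p c) : cat c w (cst p) = w := by
  have h1 : w c = cst p 0 := by rw [eq_right hw le_rfl, cst_apply]
  ext u
  rw [cat_apply hw.1 (lip_cst p) h1]
  rcases le_total u c with hu | hu
  · rw [catf_left hu]
  · rw [catf_right h1 hu, cst_apply, eq_right hw hu]

/-! ### Homotopy -/

theorem ev_cat_joined {a b c' : M} {t s ε : ℝ} {m : ℕ} {eta : List (ℝ →ᵇ M) → k}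
    {v v' : ℝ →ᵇ M} (ht : 0 ≤ t) (hs : 0 ≤ s) (hε : 0 < ε) (heta : Coc (P a c' (t + s)) ε m eta)
    (h : JoinedIn (P b c' s) v v') {z : Ch k (ℝ →ᵇ M)} (hz : Cy (P a b t) ε m z) :
    ev (fun l => eta (l.map fun y => cat t y v)) z =
      ev (fun l => eta (l.map fun y => cat t y v')) z := by
  obtain ⟨γ, hγ⟩ := h
  refine (isPreconnected_range γ.continuous).induction₂ (fun v v' =>
    ev (fun l => eta (l.map fun y => cat t y v)) z =
      ev (fun l => eta (l.map fun y => cat t y v')) z) (fun v hv => ?_)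
    (fun _ _ _ _ _ _ h h' => h.trans h') (fun _ _ _ _ h => h.symm)
    ⟨0, by rw [γ.source]⟩ ⟨1, by rw [γ.target]⟩
  have h1 : ∀ᶠ w in 𝓝[range γ] v, dist v w < ε := by
    have := Metric.ball_mem_nhds v hε
    filter_upwards [mem_nhdsWithin_of_mem_nhds this] with w hw
    rw [dist_comm]
    exact hw
  filter_upwards [h1, self_mem_nhdsWithin] with w hw hwS
  have hvP : v ∈ P b c' s := by obtain ⟨θ, rfl⟩ := hv; exact hγ θ
  have hwP : w ∈ P b c' s := by obtain ⟨θ, rfl⟩ := hwS; exact hγ θ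
  -- the prism
  have h2 : ev (fun l => eta (l.map fun y => cat t y w) + (-1) * eta (l.map fun y => cat t y v)) z
      = ev (dl (prg (fun y => cat t y v) (fun y => cat t y w) eta)) z := by
    refine ev_congr (fun l hl => ?_) hz.1
    rw [← prg_spec (fun y => cat t y v) (fun y => cat t y w) eta (l := l)
      (by rintro rfl; simp at hl) ?_]
    · ring
    · intro l' hl' hm
      refine heta l' (by omega) ⟨fun x hx => ?_, fun x hx x' hx' => ?_⟩
      · obtain ⟨y, hy, rfl | rfl⟩ := hm x hx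
        · exact cat_mem ht hs (hl.2.1 y hy) hvP
        · exact cat_mem ht hs (hl.2.1 y hy) hwP
      · have key : ∀ y ∈ l, ∀ y' ∈ l, ∀ u u' : ℝ →ᵇ M, u ∈ P b c' s → u' ∈ P b c' s →
            dist u u' < ε → dist (cat t y u) (cat t y' u') < ε := by
          intro y hy y' hy' u u' hu hu' hd
          refine (dist_cat_cat_le (hl.2.1 y hy).1 (hl.2.1 y' hy').1 hu.1 hu'.1 ?_ ?_).trans_lt
            (max_lt (hl.2.2 y hy y' hy') hd)
          · rw [eq_right (hl.2.1 y hy) le_rfl, eq_left hu le_rfl]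
          · rw [eq_right (hl.2.1 y' hy') le_rfl, eq_left hu' le_rfl]
        obtain ⟨y, hy, hy2⟩ := hm x hx
        obtain ⟨y', hy', hy2'⟩ := hm x' hx'
        rcases hy2 with rfl | rfl <;> rcases hy2' with rfl | rfl
        · exact key y hy y' hy' v v hvP hvP (by rwa [dist_self])
        · exact key y hy y' hy' v w hvP hwP hw
        · exact key y hy y' hy' w v hwP hvP (by rwa [dist_comm])
        · exact key y hy y' hy' w w hwP hwP (by rwa [dist_self])
  have h3 : ev (dl (prg (fun y => cat t y v) (fun y => cat t y w) eta)) z = 0 := by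
    rw [ev_dl]
    refine ev_zero_of (P := Ln 0) (fun l hl => ?_) hz.2
    have : l = [] := List.length_eq_zero_iff.1 hl
    subst this
    rw [prg, Sh_nil_left, map_zero, mul_zero]
  rw [h3, ev_add_fun, ev_smul_fun] at h2
  linear_combination -h2

end Vale.Agent.P216.Crs
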