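import Vale.Agent.P216.H347.Crs0

/-!
# The crossing lemma `N929.Cross`: the part before the junction, the cycle
-/

open Finsupp Set BoundedContinuousFunction Topology

namespace Vale.Agent.P216.Crs

open Vale.Agent.P216.Sl Vale.Agent.P216.PS Vale.Agent.P216.N929

variable {M : Type} [MetricSpace M] [CompactSpace M] {k : Type} [Field k]

/-! ### The paths `w * v * α` -/

section

variable {x₀ p q q' : M} {c ℓ s : ℝ} {w w' v α α' : ℝ →ᵇ M}

theorem phi_mem (hc : 0 ≤ c) (hℓ : 0 ≤ ℓ) (hs : 0 ≤ s) (hv : v ∈ P p q ℓ) (hw : w ∈ P x₀ p c)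
    (hα : α ∈ P q q' s) : cat c w (cat ℓ v α) ∈ P x₀ q' (c + ℓ + s) := by
  rw [add_assoc]
  exact cat_mem hc (by linarith) hw (cat_mem hℓ hs hv hα)

theorem dist_phi_le (hℓ : 0 ≤ ℓ) (hs : 0 ≤ s) (hv : v ∈ P p q ℓ) (hw : w ∈ P x₀ p c)
    (hα : α ∈ P q q' s) (hw' : w' ∈ P x₀ p c) (hα' : α' ∈ P q q' s) :
    dist (cat c w (cat ℓ v α)) (cat c w' (cat ℓ v α')) ≤ max (dist w w') (dist α α') := by
  have m1 := cat_mem hℓ hs hv hα
  have m2 := cat_mem hℓ hs hv hα'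
  refine (dist_cat_cat_le hw.1 hw'.1 m1.1 m2.1 ?_ ?_).trans (max_le_max le_rfl ?_)
  · rw [eq_right hw le_rfl, eq_left m1 le_rfl]
  · rw [eq_right hw' le_rfl, eq_left m2 le_rfl]
  · refine (dist_cat_cat_le hv.1 hv.1 hα.1 hα'.1 ?_ ?_).trans ?_
    · rw [eq_right hv le_rfl, eq_left hα le_rfl]
    · rw [eq_right hv le_rfl, eq_left hα' le_rfl]
    · rw [dist_self]
      exact max_le dist_nonneg le_rfl

theorem phi_left (hc : 0 ≤ c) (hℓ : 0 ≤ ℓ) (hs : 0 ≤ s) (hv : v ∈ P p q ℓ) (hw : w ∈ P x₀ p c)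
    (hα : α ∈ P q q' s) {u : ℝ} (hu : u ≤ c + ℓ) : cat c w (cat ℓ v α) u = cat c w v u := by
  have m1 := cat_mem hc hℓ hw hv
  have h2 : cat c w v (c + ℓ) = α 0 := by rw [eq_right m1 le_rfl, eq_left hα le_rfl]
  rw [← cat_assoc' hc hℓ hs hw hv hα, cat_apply m1.1 hα.1 h2, catf_left hu]

theorem cutp_left {r : ℝ} (hr : 0 < r) (hc : 0 ≤ c) (hℓ : 0 ≤ ℓ) (hs : 0 ≤ s)
    (hv : v ∈ P p q ℓ) (hw : w ∈ P x₀ p c) (hα : α ∈ P q q' s) {σ : ℝ} (hσ : σ ≤ c + ℓ) (y : M) :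
    cutp r y (cat c w (cat ℓ v α), σ) = cutp r y (cat c w v, σ) := by
  refine splice_congr fun u => ?_
  rcases le_total u σ with h0 | h0
  · rw [spl_left h0, spl_left h0, phi_left hc hℓ hs hv hw hα (h0.trans hσ)]
  rcases le_total u (σ + r) with h1 | h1
  · rw [spl_mid h0 h1, spl_mid h0 h1, phi_left hc hℓ hs hv hw hα hσ]
  · rw [spl_right hr h1, spl_right hr h1]

end

/-! ### Chains -/

theorem ev_fst_zero {α β : Type} {f : List α → k} (hf : Nrm f) {p q : ℕ}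
    {c : Ch k α} (hc : c ∈ Sp k (Ln p)) {c' : Ch k β} (hc' : c' ∈ Sp k (Ln q)) (hq : 2 ≤ q) :
    ev (fun l : List (α × β) => f (l.map Prod.fst)) (sh c c') = 0 := by
  have h1 : ∀ s : List α, s.length = p → ∀ t : List β, t.length = q →
      ev (fun l : List (α × β) => f (l.map Prod.fst)) (Sh s t) = (0 : k) := by
    intro s hs t ht
    have h2 := Sh_mem (k := k) _ s t rfl
    have h3 := Sh_chain_fst (k := k) _ s t rfl
    have h4 : (Sh s t : Ch k (α × β)) ∈ Sp k (fun l => Gr s t l ∧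
        ∀ j, ((l.drop j).map Prod.fst).IsChain (· ≠ ·) → l.length ≤ s.length + j) := by
      rw [Finsupp.mem_supported] at h2 h3 ⊢
      exact fun l hl => ⟨h2 hl, h3 hl⟩
    refine ev_zero_of (fun l hl => hf _ fun hch => ?_) h4
    have h5 := hl.2 0 (by simpa using hch)
    have h6 := hl.1.1
    omega
  have h2 : ∀ s : List α, s.length = p →
      ev (fun l : List (α × β) => f (l.map Prod.fst)) (sh (single s 1) c') = (0 : k) := by
    intro s hs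
    have := eq_of_mem (P := Ln q)
      (F := ev (fun l : List (α × β) => f (l.map Prod.fst)) ∘ₗ (sh (k := k) (single s 1)))
      (G := 0) (fun t ht => by
        rw [LinearMap.comp_apply, sh_single, LinearMap.zero_apply]
        exact h1 s hs t ht) hc'
    simpa using this
  have := eq_of_mem (P := Ln p)
    (F := ev (fun l : List (α × β) => f (l.map Prod.fst)) ∘ₗ
      (sh (k := k) (α := α) (β := β)).flip c')
    (G := 0) (fun s hs => by
      rw [LinearMap.comp_apply, LinearMap.flip_apply, LinearMap.zero_apply]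
      exact h2 s hs) hc
  simpa using this

theorem intg_congr {n : ℕ} (τ : List (M × M) → k) (g : List (ℝ →ᵇ M) → k) (r : ℝ) (y : M)
    {β : Type} {A B : β → (ℝ →ᵇ M) × ℝ} {L : List β}
    (h : ∀ x ∈ L, evp y (A x) = evp y (B x) ∧ cutp r y (A x) = cutp r y (B x)) :
    intg n τ g r y (L.map A) = intg n τ g r y (L.map B) := by
  rw [intg, N929.cup, N929.cup, ← List.map_take, ← List.map_take, ← List.map_drop, ← List.map_drop,
    List.map_map, List.map_map, List.map_map, List.map_map]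
  rw [List.map_congr_left (f := evp y ∘ A) (g := evp y ∘ B)
    fun x hx => (h x (List.mem_of_mem_take hx)).1,
    List.map_congr_left (f := cutp r y ∘ A) (g := cutp r y ∘ B)
    fun x hx => (h x (List.mem_of_mem_drop hx)).2]

/-- The part before the junction does not contribute. -/
theorem part1 {x₀ p q q' : M} {c ℓ s r : ℝ} {v : ℝ →ᵇ M} {τ : List (M × M) → k} (hτ : Nrm τ)
    {g : List (ℝ →ᵇ M) → k} (hg : Nrm g) {n m j : ℕ} (hj : 2 ≤ j) (hr : 0 < r) (hc : 0 ≤ c)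
    (hℓ : 0 ≤ ℓ) (hs : 0 ≤ s) (hv : v ∈ P p q ℓ) {z a : Ch k (ℝ →ᵇ M)}
    (hz : z ∈ Sp k (fun l => l.length = m ∧ ∀ w ∈ l, w ∈ P x₀ p c))
    (ha : a ∈ Sp k (fun l => l.length = j ∧ ∀ w ∈ l, w ∈ P q q' s)) {ι : Ch k ℝ}
    (hι : ι ∈ Sp k (fun l => ∀ x ∈ l, x ≤ c + ℓ)) (y : M) :
    ev (intg n τ g r y) (sh (mp (fun x : (ℝ →ᵇ M) × (ℝ →ᵇ M) => cat c x.1 (cat ℓ v x.2))
      (sh z a)) ι) = 0 := by
  have e1 := sh_mp (k := k) (fun x : (ℝ →ᵇ M) × (ℝ →ᵇ M) => cat c x.1 (cat ℓ v x.2))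
    (id : ℝ → ℝ) (sh z a) ι
  rw [Tau.mp_id] at e1
  rw [e1, ev_mp]
  set F₁ : List ((ℝ →ᵇ M) × ℝ) → k := fun l =>
    intg n τ g r y (l.map fun x => (cat c x.1 v, x.2)) with hF₁
  have hN : Nrm F₁ := Nrm.map (f := intg n τ g r y)
    (fun l hl => Nrm.cup n (hτ.map (evp y)) (hg.map (cutp r y)) l hl) _
  have e2 : ev (fun L : List (((ℝ →ᵇ M) × (ℝ →ᵇ M)) × ℝ) => intg n τ g r y (L.map (Prod.map
      (fun x : (ℝ →ᵇ M) × (ℝ →ᵇ M) => cat c x.1 (cat ℓ v x.2)) id))) (sh (sh z a) ι) =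
      ev (fun L => F₁ (L.map (Prod.map Prod.fst id))) (sh (sh z a) ι) := by
    refine ev_congr (P := fun L => ∀ x ∈ L, (x.1.1 ∈ P x₀ p c ∧ x.1.2 ∈ P q q' s) ∧
      x.2 ≤ c + ℓ) (fun L hL => ?_) ?_
    · change _ = intg n τ g r y ((L.map (Prod.map Prod.fst id)).map
        fun x : (ℝ →ᵇ M) × ℝ => (cat c x.1 v, x.2))
      rw [List.map_map]
      refine intg_congr τ g r y fun x hx => ?_
      obtain ⟨⟨h1, h2⟩, h3⟩ := hL x hx
      refine ⟨?_, ?_⟩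
      · change (cat c x.1.1 (cat ℓ v x.1.2) x.2, y) = (cat c x.1.1 v x.2, y)
        rw [phi_left hc hℓ hs hv h1 h2 h3]
      · exact cutp_left hr hc hℓ hs hv h1 h2 h3 y
    · refine sh_mem (P := fun L => ∀ x ∈ L, x.1 ∈ P x₀ p c ∧ x.2 ∈ P q q' s)
        (fun S T L hS hT hL x hx => ⟨hS _ (hL.2 x hx).1, hT _ (hL.2 x hx).2⟩) ?_ hι
      exact sh_mem (fun S T L hS hT hL x hx => ⟨hS.2 _ (hL.2 x hx).1, hT.2 _ (hL.2 x hx).2⟩) hz ha
  have e3 := sh_mp (k := k) (Prod.fst : (ℝ →ᵇ M) × (ℝ →ᵇ M) → (ℝ →ᵇ M)) (id : ℝ → ℝ) (sh z a) ι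
  rw [Tau.mp_id] at e3
  rw [e2, ← ev_mp F₁ (Prod.map Prod.fst id), ← e3, ← Sl.ev_fib, ev_mp]
  exact ev_fst_zero (Nrm.fib hN ι) (Sp_mono (fun l hl => hl.1) hz) (Sp_mono (fun l hl => hl.1) ha)
    hj

/-! ### The cycle -/

theorem bd_zero_sh {α β : Type} [PseudoMetricSpace α] [PseudoMetricSpace β] {X : Set α}
    {Y : Set β} {ε : ℝ} {m j : ℕ} (hj : 1 ≤ j) {z : Ch k α} {a : Ch k β} (hz : Cy X ε m z)
    (ha : Cy Y ε j a) : bd (sh z a) = 0 := by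
  have ha0 : bd a = 0 := by
    have h1 : bd a ∈ Sp k (Ln j) := map_mem bd (fun l hl => by
      rw [bd_single, one_smul]
      refine Sp_mono (fun l' hl' => ?_) (bdL_sub l)
      have e1 := hl'.1
      have e2 := hl.1
      change l'.length = j
      omega) ha.1
    have h2 := ha.2
    rw [Finsupp.mem_supported] at h1 h2
    rw [← Finsupp.support_eq_empty, ← Finset.coe_eq_empty, Set.eq_empty_iff_forall_notMem]
    intro l hl
    have a1 : l.length = j := h1 hl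
    have a2 : l.length = 0 := h2 hl
    omega
  rw [bd_sh (p := m) (q := j) (by omega) (Sp_mono (fun l hl => hl.1) hz.1)
    (Sp_mono (fun l hl => hl.1) ha.1), ha0, map_zero, smul_zero, add_zero]
  have := eq_of_mem (P := Ln 0) (F := (sh (k := k) (α := α) (β := β)).flip a) (G := 0)
    (fun l hl => by
      have : l = [] := List.length_eq_zero_iff.1 hl
      subst this
      rw [LinearMap.flip_apply, sh_nil_left, LinearMap.zero_apply]) hz.2
  simpa using this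

theorem cy_phi {x₀ p q q' : M} {c ℓ s ε : ℝ} {v : ℝ →ᵇ M} {n m : ℕ} (hn : 2 ≤ n) (hc : 0 ≤ c)
    (hℓ : 0 ≤ ℓ) (hs : 0 ≤ s) (hv : v ∈ P p q ℓ) {z a : Ch k (ℝ →ᵇ M)}
    (hz : Cy (P x₀ p c) ε m z) (ha : Cy (P q q' s) ε (n - 1) a) :
    Cy (P x₀ q' (c + ℓ + s)) ε (m + n - 1)
      (mp (fun x : (ℝ →ᵇ M) × (ℝ →ᵇ M) => cat c x.1 (cat ℓ v x.2)) (sh z a)) := by
  refine ⟨?_, ?_⟩
  · have h1 : sh z a ∈ Sp k (fun L => L.length = m + n ∧ (∀ x ∈ L, x.1 ∈ P x₀ p c ∧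
        x.2 ∈ P q q' s) ∧ ∀ x ∈ L, ∀ y ∈ L, dist x.1 y.1 < ε ∧ dist x.2 y.2 < ε) := by
      refine sh_mem (fun S T L hS hT hL => ⟨?_, fun x hx => ⟨hS.2.1 _ (hL.2 x hx).1,
        hT.2.1 _ (hL.2 x hx).2⟩, fun x hx y hy => ⟨hS.2.2 _ (hL.2 x hx).1 _ (hL.2 y hy).1,
        hT.2.2 _ (hL.2 x hx).2 _ (hL.2 y hy).2⟩⟩) hz.1 ha.1
      have e1 := hL.1
      have e2 := hS.1
      have e3 := hT.1
      omega
    refine map_mem _ (fun L hL => ?_) h1
    rw [mp_single]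
    refine single_mem ⟨?_, fun x hx => ?_, fun x hx x' hx' => ?_⟩ _
    · rw [List.length_map, hL.1]
      omega
    · obtain ⟨y, hy, rfl⟩ := List.mem_map.1 hx
      exact phi_mem hc hℓ hs hv (hL.2.1 y hy).1 (hL.2.1 y hy).2
    · obtain ⟨y, hy, rfl⟩ := List.mem_map.1 hx
      obtain ⟨y', hy', rfl⟩ := List.mem_map.1 hx'
      exact (dist_phi_le hℓ hs hv (hL.2.1 y hy).1 (hL.2.1 y hy).2 (hL.2.1 y' hy').1
        (hL.2.1 y' hy').2).trans_lt (max_lt (hL.2.2 y hy y' hy').1 (hL.2.2 y hy y' hy').2)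
  · have : bd (mp (fun x : (ℝ →ᵇ M) × (ℝ →ᵇ M) => cat c x.1 (cat ℓ v x.2)) (sh z a)) = 0 := by
      rw [bd_mp, bd_zero_sh (by omega) hz ha, map_zero]
    rw [this]
    exact Submodule.zero_mem _

/-- An edge from `0` to `a + b`. -/
theorem edge_add {a b ε : ℝ} (ha : 0 ≤ a) (hb : 0 ≤ b) {ι₁ ι₂ : Ch k ℝ} (h₁ : Edge 0 a ε ι₁)
    (h₂ : Edge 0 b ε ι₂) : Edge 0 (a + b) ε (ι₁ + mp (fun t => t + a) ι₂) := by
  refine ⟨Submodule.add_mem _ ?_ ?_, ?_⟩
  · exact Sp_mono (fun l hl => ⟨hl.1, hl.2.mono (Icc_subset_Icc_right (by linarith)) le_rfl⟩) h₁.1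
  · refine map_mem _ (fun l hl => ?_) h₂.1
    rw [mp_single]
    refine single_mem ⟨?_, fun x hx => ?_, fun x hx x' hx' => ?_⟩ _
    · rw [List.length_map, hl.1]
    · obtain ⟨y, hy, rfl⟩ := List.mem_map.1 hx
      have := hl.2.1 y hy
      exact ⟨by linarith [this.1], by linarith [this.2]⟩
    · obtain ⟨y, hy, rfl⟩ := List.mem_map.1 hx
      obtain ⟨y', hy', rfl⟩ := List.mem_map.1 hx'
      rw [dist_add_right]
      exact hl.2.2 y hy y' hy'
  · rw [map_add, bd_mp, h₁.2, h₂.2, map_sub, mp_single, mp_single]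
    simp only [List.map_cons, List.map_nil, zero_add]
    rw [add_comm b a]
    abel

end Vale.Agent.P216.Crs
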