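import Vale.Agent.P216.H787.Swap

/-!
# P216, Theorem B, block [TAU] : cup products of coboundaries of functions, in list form

`cupd [χ₁, ..., χₘ]` is the product cochain `dχ₁ ∪ ... ∪ dχₘ` (on lists of length `m + 1`).
`W m` is the local cocycle of the origin of `ℝᵐ`.
-/

open Finsupp Vale.Agent.P216.Sl

namespace Vale.Agent.P216.Tau

variable {k : Type} [Field k]
variable {α β γ : Type}

/-! ### The product -/

/-- The product of the coboundaries of the functions of the list. -/
def cupd : List (β → k) → List β → k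
  | [], [_] => 1
  | χ :: χs, a :: b :: l => (χ b - χ a) * cupd χs (b :: l)
  | _, _ => 0

theorem cupd_nil_one (a : β) : cupd ([] : List (β → k)) [a] = 1 := rfl

theorem cupd_cons_cons (χ : β → k) (χs : List (β → k)) (a b : β) (l : List β) :
    cupd (χ :: χs) (a :: b :: l) = (χ b - χ a) * cupd χs (b :: l) := rfl

theorem cupd_nil_nil : cupd ([] : List (β → k)) ([] : List β) = 0 := rfl

theorem cupd_nil_cons_cons (a b : β) (l : List β) : cupd ([] : List (β → k)) (a :: b :: l) = 0 := rfl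

theorem cupd_cons_nil (χ : β → k) (χs : List (β → k)) : cupd (χ :: χs) [] = 0 := rfl

theorem cupd_cons_one (χ : β → k) (χs : List (β → k)) (a : β) : cupd (χ :: χs) [a] = 0 := rfl

theorem cupd_at_nil (χs : List (β → k)) : cupd χs [] = 0 := by
  cases χs <;> rfl

theorem cupd_length : ∀ (χs : List (β → k)) (l : List β), l.length ≠ χs.length + 1 →
    cupd χs l = 0
  | [], [], _ => rfl
  | [], [_], h => absurd rfl h
  | [], _ :: _ :: _, _ => rfl
  | _ :: _, [], _ => rfl
  | _ :: _, [_], _ => rfl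
  | χ :: χs, a :: b :: l, h => by
    rw [cupd_cons_cons, cupd_length χs (b :: l) (fun h' => h (by simpa using h')), mul_zero]

theorem cupd_nrm : ∀ (χs : List (β → k)), Nrm (cupd χs)
  | [], [], _ => rfl
  | [], [_], h => absurd (List.isChain_singleton _) h
  | [], _ :: _ :: _, _ => rfl
  | _ :: _, [], _ => rfl
  | _ :: _, [_], _ => rfl
  | χ :: χs, a :: b :: l, h => by
    rw [cupd_cons_cons]
    by_cases hab : a = b
    · rw [hab, sub_self, zero_mul]
    · rw [cupd_nrm χs (b :: l) (fun h' => h (List.isChain_cons_cons.2 ⟨hab, h'⟩)), mul_zero]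

theorem dl_cupd : ∀ (χs : List (β → k)) (l : List β), l.length = χs.length + 2 →
    dl (cupd χs) l = 0
  | [], l, h => by
    obtain ⟨a, b, rfl⟩ : ∃ a b, l = [a, b] := List.length_eq_two.1 (by simpa using h)
    rw [dl, bdL_cons, bdL_cons, bdL_nil]
    simp [cupd_nil_one]
  | χ :: χs, l, h => by
    rcases l with _ | ⟨a, _ | ⟨b, _ | ⟨c, l⟩⟩⟩
    · simp at h
    · simp at h
    · simp at h
    · have ih := dl_cupd χs (b :: c :: l) (by simpa using h)
      rw [dl, bdL_cons, map_sub, ev_single, one_mul, sub_eq_zero] at ih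
      rw [dl, bdL_cons, bdL_cons, map_sub, map_sub, map_sub, ev_single, one_mul, cons_single,
        ev_single, one_mul]
      have e : ev (cupd (χ :: χs)) (cons a (cons b (bdL (c :: l)))) =
          (χ b - χ a) * ev (cupd χs) (cons b (bdL (c :: l))) := by
        rw [ev_cons, ev_cons, ev_cons, ← ev_smul_fun]
        rfl
      rw [e, ← ih, cupd_cons_cons, cupd_cons_cons]
      ring

theorem ev_dl_cupd (χs : List (β → k)) {c : Ch k β} (hc : c ∈ Sp k (Ln (χs.length + 2))) :
    ev (dl (cupd χs)) c = 0 :=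
  ev_zero_of (fun l hl => dl_cupd χs l hl) hc

theorem cupd_map (g : α → β) : ∀ (χs : List (β → k)) (l : List α),
    cupd (χs.map fun χ => fun x => χ (g x)) l = cupd χs (l.map g)
  | [], [] => rfl
  | [], [_] => rfl
  | [], _ :: _ :: _ => rfl
  | _ :: _, [] => rfl
  | _ :: _, [_] => rfl
  | χ :: χs, a :: b :: l => by
    have := cupd_map g χs (b :: l)
    rw [List.map_cons, cupd_cons_cons, this]
    rfl

theorem cupd_append : ∀ (χs ψs : List (β → k)) (l : List β),
    cupd (χs ++ ψs) l = cupd χs (l.take (χs.length + 1)) * cupd ψs (l.drop χs.length)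
  | [], ψs, [] => by simp [cupd_at_nil]
  | [], ψs, a :: l => by
    rw [List.nil_append, List.length_nil, List.drop_zero, zero_add, List.take_succ_cons,
      List.take_zero, cupd_nil_one, one_mul]
  | _ :: _, _, [] => by simp [cupd_at_nil]
  | χ :: χs, ψs, [a] => by
    rw [List.cons_append, cupd_cons_one]
    simp [cupd_cons_one]
  | χ :: χs, ψs, a :: b :: l => by
    rw [List.cons_append, cupd_cons_cons, cupd_append χs ψs (b :: l), List.length_cons,
      List.drop_succ_cons, List.take_succ_cons, List.take_succ_cons, List.take_succ_cons,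
      cupd_cons_cons, mul_assoc]

/-- If the product does not vanish then each factor jumps somewhere. -/
theorem exists_jump : ∀ (χs : List (β → k)) (l : List β), cupd χs l ≠ 0 → ∀ χ ∈ χs,
    ∃ a ∈ l, ∃ b ∈ l, χ a ≠ χ b
  | [], _, _, χ, hχ => absurd hχ (by simp)
  | _ :: _, [], h, _, _ => absurd rfl h
  | _ :: _, [_], h, _, _ => absurd rfl h
  | χ :: χs, a :: b :: l, h, χ', hχ' => by
    rw [cupd_cons_cons] at h
    rcases List.mem_cons.1 hχ' with rfl | hm
    · exact ⟨a, by simp, b, by simp, fun hab => h (by rw [hab, sub_self, zero_mul])⟩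
    · obtain ⟨x, hx, y, hy, hxy⟩ := exists_jump χs (b :: l) (fun h' => h (by rw [h', mul_zero])) χ'
        hm
      exact ⟨x, List.mem_cons_of_mem _ hx, y, List.mem_cons_of_mem _ hy, hxy⟩

/-! ### The cocycle of the origin -/

/-- The product of the jumps of `φ` in the coordinates. -/
def W (φ : ℝ → k) (m : ℕ) : List (Fin m → ℝ) → k :=
  cupd (List.ofFn fun (j : Fin m) (v : Fin m → ℝ) => φ (v j))

theorem W_nrm (φ : ℝ → k) (m : ℕ) : Nrm (W φ m) := cupd_nrm _

theorem ev_dl_W (φ : ℝ → k) {m : ℕ} {c : Ch k (Fin m → ℝ)} (hc : c ∈ Sp k (Ln (m + 2))) :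
    ev (dl (W φ m)) c = 0 :=
  ev_dl_cupd _ (by rwa [List.length_ofFn])

theorem dl_W (φ : ℝ → k) {m : ℕ} {l : List (Fin m → ℝ)} (hl : l.length = m + 2) :
    dl (W φ m) l = 0 := dl_cupd _ _ (by rwa [List.length_ofFn])

/-- The jump at `0`. -/
noncomputable def χ₀ (k : Type) [Field k] (x : ℝ) : k := if 0 < x then 1 else 0

/-- Vanishing on small lists away from the origin. -/
theorem W_zero {m : ℕ} {ε : ℝ} {l : List (Fin m → ℝ)} (hε : 0 < ε)
    (h : ∀ a ∈ l, ∀ b ∈ l, dist a b < ε) {v : Fin m → ℝ} (hv : v ∈ l) (hv2 : 2 * ε ≤ ‖v‖) :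
    W (χ₀ k) m l = 0 := by
  by_contra hne
  refine absurd hv2 (not_le.2 ((pi_norm_lt_iff (by positivity)).2 fun j => ?_))
  obtain ⟨a, ha, b, hb, hab⟩ := exists_jump _ l hne (fun v => χ₀ k (v j))
    ((List.mem_ofFn' _ _).2 ⟨j, rfl⟩)
  have h1 : |v j - a j| < ε := (dist_le_pi_dist v a j).trans_lt (h v hv a ha)
  have h2 : |a j - b j| < ε := (dist_le_pi_dist a b j).trans_lt (h a ha b hb)
  have h3 : |a j| < ε := by
    simp only [χ₀] at hab
    rw [abs_lt] at h2 ⊢
    split_ifs at hab with h4 h5 h5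
    · exact absurd rfl hab
    · constructor <;> linarith
    · constructor <;> linarith
    · exact absurd rfl hab
  rw [Real.norm_eq_abs]
  calc |v j| = |(v j - a j) + a j| := by ring_nf
    _ ≤ |v j - a j| + |a j| := abs_add_le _ _
    _ < 2 * ε := by linarith

/-! ### Product with an interval -/

/-- Adding a last coordinate. -/
def sn (m : ℕ) (p : (Fin m → ℝ) × ℝ) : Fin (m + 1) → ℝ := Fin.snoc p.1 p.2

theorem W_sn (φ : ℝ → k) (m : ℕ) (l : List ((Fin m → ℝ) × ℝ)) :
    W φ (m + 1) (l.map (sn m)) = W φ m ((l.take (m + 1)).map Prod.fst) *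
      cupd [fun p : (Fin m → ℝ) × ℝ => φ p.2] (l.drop m) := by
  have e1 : (List.ofFn fun (j : Fin (m + 1)) (v : Fin (m + 1) → ℝ) => φ (v j)) =
      (List.ofFn fun (j : Fin m) (v : Fin (m + 1) → ℝ) => φ (v j.castSucc)) ++
        [fun v : Fin (m + 1) → ℝ => φ (v (Fin.last m))] := by
    rw [List.ofFn_succ', List.concat_eq_append]
  rw [W, e1, cupd_append, List.length_ofFn, W, ← List.map_take, ← List.map_drop,
    ← cupd_map (sn m), ← cupd_map (sn m), ← cupd_map Prod.fst]
  congr 2
  · rw [List.map_ofFn, List.map_ofFn]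
    congr 1
    ext j v
    simp [sn]
  · simp [sn]

theorem cupd_two (φ : β → k) (x y : β) : cupd [φ] [x, y] = φ y - φ x := by
  rw [cupd_cons_cons, cupd_nil_one, mul_one]

theorem ev_W_Sh (φ : ℝ → k) {m : ℕ} {s : List (Fin m → ℝ)} (hs : s.length = m + 1)
    {t : List ℝ} (ht : t.length = 2) :
    ev (W φ (m + 1)) (mp (sn m) (Sh s t)) = W φ m s * cupd [φ] t := by
  obtain ⟨x, y, rfl⟩ := List.length_eq_two.1 ht
  rw [ev_mp]
  have e1 : (fun l : List ((Fin m → ℝ) × ℝ) => W φ (m + 1) (l.map (sn m))) =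
      fun l => W φ m ((l.take (m + 1)).map Prod.fst) *
        cupd [fun p : (Fin m → ℝ) × ℝ => φ p.2] (l.drop m) := funext fun l => W_sn φ m l
  rw [e1, front_left (W_nrm φ m) _ m s [x, y] (by simp [hs])
    (by rintro rfl; simp at hs) (by simp), if_pos hs.ge, ← hs, List.take_length]
  obtain ⟨z, hz⟩ : ∃ z, s.drop m = [z] := List.length_eq_one_iff.1 (by
    rw [List.length_drop, hs]; omega)
  rw [hz, Sh_point_left _ (by simp), ev_single, one_mul]
  rfl

end Vale.Agent.P216.Tau
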