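import Vale.Agent.P216.H347.Chain
import Vale.Agent.P216.N929.Om1

/-!
# P216, Theorem B, block [TAU] : the Thom cochain of a manifold homeomorphic to a sphere
-/

open Set Finsupp Vale.Agent.P216.Sl

namespace Vale.Agent.P216.Tau

set_option linter.unusedSectionVars false

variable {k : Type} [Field k] {n : ℕ} {M : Type} [MetricSpace M] [CompactSpace M]

/-! ### Constants -/

theorem modulus {E F : Type} [PseudoMetricSpace E] [PseudoMetricSpace F] {S : Set E}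
    (hS : IsCompact S) {f : E → F} (hf : ContinuousOn f S) {ε : ℝ} (hε : 0 < ε) :
    ∃ d > 0, ∀ x ∈ S, ∀ y ∈ S, dist x y < d → dist (f x) (f y) < ε :=
  Metric.uniformContinuousOn_iff.1 (hS.uniformContinuousOn_of_continuous hf) ε hε

theorem lower {E F : Type} [TopologicalSpace E] [NormedAddCommGroup F] {S : Set E}
    (hS : IsCompact S) {f : E → F} (hf : ContinuousOn f S) (h0 : ∀ x ∈ S, f x ≠ 0) :
    ∃ c > 0, ∀ x ∈ S, c ≤ ‖f x‖ :=
  hS.exists_forall_le' hf.norm (a := 0) fun b hb => norm_pos_iff.2 (h0 b hb)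

variable (h : M ≃ₜ Metric.sphere (0 : EuclideanSpace ℝ (Fin (n + 1))) 1)

theorem continuous_Fh : Continuous (Fh h) := by
  refine continuous_pi fun j => ?_
  have h1 : Continuous fun x : M => (h x).1 j :=
    (PiLp.continuous_apply 2 _ j).comp (continuous_subtype_val.comp h.continuous)
  exact ((continuous_const.sub continuous_snd).neg.mul
    (h1.comp (continuous_fst.comp continuous_fst))).add
    (continuous_snd.mul (h1.comp (continuous_snd.comp continuous_fst)))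

theorem Fh_ne_zero {p : (M × M) × ℝ} (ht : p.2 ∈ Icc (0 : ℝ) 1)
    (h0 : p.2 = 0 ∨ p.2 = 1 ∨ p.1.1 ≠ p.1.2) : Fh h p ≠ 0 := by
  intro h1
  obtain ⟨⟨x, y⟩, t⟩ := p
  simp only at ht h0
  have h2 : (1 - t) • (h x).1 = t • (h y).1 := by
    ext j
    have h3 := congrFun h1 j
    simp only [Fh, Pi.zero_apply] at h3
    simp only [PiLp.smul_apply, smul_eq_mul]
    linarith
  have hx : ‖(h x).1‖ = 1 := by simp
  have hy : ‖(h y).1‖ = 1 := by simp
  have h3 : 1 - t = t := by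
    have := congrArg norm h2
    rw [norm_smul, norm_smul, hx, hy, mul_one, mul_one, Real.norm_of_nonneg (by linarith [ht.2]),
      Real.norm_of_nonneg ht.1] at this
    exact this
  have h4 : t = 1 / 2 := by linarith
  rw [h3] at h2
  have h5 : (h x).1 = (h y).1 := smul_right_injective _ (by rw [h4]; norm_num) h2
  have h6 : x = y := h.injective (Subtype.ext h5)
  rcases h0 with h0 | h0 | h0
  · rw [h4] at h0; norm_num at h0
  · rw [h4] at h0; norm_num at h0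
  · exact h0 h6

theorem consts {ρ : ℝ} (hρ : 0 < ρ) : ∃ c d : ℝ, 0 < c ∧ 0 < d ∧
    (∀ p : (M × M) × ℝ, p.2 ∈ Icc (0 : ℝ) 1 → (p.2 = 0 ∨ p.2 = 1 ∨ ρ ≤ dist p.1.1 p.1.2) →
      c ≤ ‖Fh h p‖) ∧
    ∀ p q : (M × M) × ℝ, p.2 ∈ Icc (0 : ℝ) 1 → q.2 ∈ Icc (0 : ℝ) 1 → dist p q < d →
      dist (Fh h p) (Fh h q) < c / 2 := by
  have hS : IsCompact ((univ : Set (M × M)) ×ˢ Icc (0 : ℝ) 1) := isCompact_univ.prod isCompact_Icc
  have hc : IsClosed {p : (M × M) × ℝ | p.2 = 0 ∨ p.2 = 1 ∨ ρ ≤ dist p.1.1 p.1.2} := by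
    have h1 : IsClosed {p : (M × M) × ℝ | p.2 = 0} := isClosed_eq continuous_snd continuous_const
    have h2 : IsClosed {p : (M × M) × ℝ | p.2 = 1} := isClosed_eq continuous_snd continuous_const
    have h3 : IsClosed {p : (M × M) × ℝ | ρ ≤ dist p.1.1 p.1.2} :=
      isClosed_le continuous_const (by fun_prop)
    exact h1.union (h2.union h3)
  obtain ⟨c, hc0, hc⟩ := lower (hS.inter_right hc) (continuous_Fh h).continuousOn (fun p hp => by
    refine Fh_ne_zero h hp.1.2 ?_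
    rcases hp.2 with h0 | h0 | h0
    · exact Or.inl h0
    · exact Or.inr (Or.inl h0)
    · refine Or.inr (Or.inr ?_)
      intro h1
      rw [h1, dist_self] at h0
      linarith)
  obtain ⟨d, hd0, hd⟩ := modulus hS (continuous_Fh h).continuousOn (half_pos hc0)
  exact ⟨c, d, hc0, hd0, fun p h1 h2 => hc p ⟨⟨mem_univ _, h1⟩, h2⟩,
    fun p q h1 h2 h3 => hd p ⟨mem_univ _, h1⟩ q ⟨mem_univ _, h2⟩ h3⟩

/-! ### The cochain -/

/-- `∫ W (Fh (p, t)) dt` -/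
noncomputable def tau0 (k : Type) [Field k] (N : ℕ) : List (M × M) → k :=
  fib (fun l : List ((M × M) × ℝ) => W (χ₀ k) (n + 1) (l.map (Fh h))) (im k 1 N)

theorem tau0_nrm (N : ℕ) : Nrm (tau0 h k N) := Nrm.fib ((W_nrm _ _).map (Fh h)) _

/-- The lists of the grid. -/
theorem grid {E : Type} [PseudoMetricSpace E] {X : Set E} {δ δ' a b : ℝ} {l : List E}
    (hl : N929.Fine X δ l) (hne : l ≠ []) {ι : Ch k ℝ} (hι : IsMesh ι a b δ') :
    sh (single l (1 : k)) ι ∈ Sp k (fun L => L.length = l.length + 1 ∧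
      ∀ x ∈ L, x.1 ∈ l ∧ x.2 ∈ Icc a b ∧ ∀ y ∈ L, dist x.1 y.1 < δ ∧ dist x.2 y.2 < δ') := by
  refine sh_mem (P := fun l' => l' = l) (fun s t L hs ht hL => ?_)
    (single_mem (P := fun l' => l' = l) rfl _) hι.mem
  subst hs
  refine ⟨?_, fun x hx => ⟨(hL.2 x hx).1, ht.2.1 _ (hL.2 x hx).2, fun y hy =>
    ⟨hl.2 _ (hL.2 x hx).1 _ (hL.2 y hy).1, ht.2.2 _ (hL.2 x hx).2 _ (hL.2 y hy).2⟩⟩⟩
  have h1 := hL.1
  have h2 := ht.1
  omega

variable {h}
variable {ρ c d : ℝ} {N : ℕ}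

/-- The data of `consts`. -/
structure Cst (h : M ≃ₜ Metric.sphere (0 : EuclideanSpace ℝ (Fin (n + 1))) 1) (ρ c d : ℝ) : Prop
    where
  hc : 0 < c
  hd : 0 < d
  far : ∀ p : (M × M) × ℝ, p.2 ∈ Icc (0 : ℝ) 1 → (p.2 = 0 ∨ p.2 = 1 ∨ ρ ≤ dist p.1.1 p.1.2) →
      c ≤ ‖Fh h p‖
  uc : ∀ p q : (M × M) × ℝ, p.2 ∈ Icc (0 : ℝ) 1 → q.2 ∈ Icc (0 : ℝ) 1 → dist p q < d →
      dist (Fh h p) (Fh h q) < c / 2

theorem W_Fh_zero (H : Cst h ρ c d) {L : List ((M × M) × ℝ)} (hI : ∀ x ∈ L, x.2 ∈ Icc (0 : ℝ) 1)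
    (hd : ∀ x ∈ L, ∀ y ∈ L, dist x y < d) {x : (M × M) × ℝ} (hx : x ∈ L)
    (hx2 : x.2 = 0 ∨ x.2 = 1 ∨ ρ ≤ dist x.1.1 x.1.2) :
    W (χ₀ k) (n + 1) (L.map (Fh h)) = 0 := by
  refine W_zero (ε := c / 2) (half_pos H.hc) ?_ (List.mem_map_of_mem hx) ?_
  · intro a ha b hb
    obtain ⟨p, hp, rfl⟩ := List.mem_map.1 ha
    obtain ⟨q, hq, rfl⟩ := List.mem_map.1 hb
    exact H.uc p q (hI p hp) (hI q hq) (hd p hp q hq)
  · have := H.far x (hI x hx) hx2
    linarith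

theorem tau0_far (H : Cst h ρ c d) (hN : 1 / ((N : ℝ) + 1) < d) {l : List (M × M)} (hne : l ≠ [])
    (hl : N929.Fine univ d l) (hf : ∀ p ∈ l, ρ ≤ dist p.1 p.2) : tau0 h k N l = 0 := by
  refine ev_zero_of (fun L hL => ?_) (grid hl hne (im_isMesh zero_le_one hN))
  obtain ⟨x, L', rfl⟩ : ∃ x L', L = x :: L' := by
    rcases L with _ | ⟨x, L'⟩
    · simp at hL
    · exact ⟨x, L', rfl⟩
  refine W_Fh_zero H (fun y hy => (hL.2 y hy).2.1) (fun y hy z hz => ?_)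
    (List.mem_cons_self (a := x)) (Or.inr (Or.inr (hf _ (hL.2 x List.mem_cons_self).1)))
  have := (hL.2 y hy).2.2 z hz
  exact max_lt this.1 this.2

theorem dl_tau0 (H : Cst h ρ c d) (hN : 1 / ((N : ℝ) + 1) < d) {l : List (M × M)}
    (hlen : l.length = n + 2) (hl : N929.Fine univ d l) : dl (tau0 h k N) l = 0 := by
  have hM : IsMesh (im k 1 N) 0 1 d := im_isMesh zero_le_one hN
  have hne : l ≠ [] := by rintro rfl; simp at hlen
  have key : ∀ t : ℝ, (t = 0 ∨ t = 1) →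
      W (χ₀ k) (n + 1) ((l.map fun a => (a, t)).map (Fh h)) = 0 := by
    intro t ht
    obtain ⟨x, l', rfl⟩ := List.exists_cons_of_ne_nil hne
    have htI : t ∈ Icc (0 : ℝ) 1 := by rcases ht with rfl | rfl <;> simp
    refine W_Fh_zero H ?_ ?_ (x := (x, t)) ?_ ?_
    · intro y hy
      obtain ⟨p, hp, rfl⟩ := List.mem_map.1 hy
      exact htI
    · intro y hy z hz
      obtain ⟨p, hp, rfl⟩ := List.mem_map.1 hy
      obtain ⟨q, hq, rfl⟩ := List.mem_map.1 hz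
      refine max_lt (hl.2 p hp q hq) ?_
      rw [dist_self]
      exact H.hd
    · exact List.mem_map_of_mem (f := fun a => (a, t)) List.mem_cons_self
    · rcases ht with rfl | rfl
      · exact Or.inl rfl
      · exact Or.inr (Or.inl rfl)
  rw [tau0, dl_fib _ hM.ln hM.bd (p := n + 1) (by omega), key 1 (Or.inr rfl), key 0 (Or.inl rfl),
    sub_self, mul_zero, sub_zero]
  refine ev_zero_of (fun L hL => ?_) (grid hl hne hM)
  rw [Sl.dl_map (W (χ₀ k) (n + 1)) (Fh h)]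
  exact dl_W (χ₀ k) (m := n + 1) (by rw [List.length_map, hL.1, hlen])

open Classical in
/-- The Thom cochain. -/
noncomputable def tauc (h : M ≃ₜ Metric.sphere (0 : EuclideanSpace ℝ (Fin (n + 1))) 1)
    (k : Type) [Field k] (ρ₁ : ℝ) (N : ℕ) (l : List (M × M)) : k :=
  if ∃ p ∈ l, ρ₁ ≤ dist p.1 p.2 then 0 else tau0 h k N l

theorem tauc_nrm (k : Type) [Field k] (ρ₁ : ℝ) : Nrm (tauc h k ρ₁ N) := fun l hl => by
  rw [tauc, tau0_nrm (k := k) h N l hl, ite_self]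

theorem tauc_supp {ρ₁ : ℝ} {l : List (M × M)} (hl : ∃ p ∈ l, ρ₁ ≤ dist p.1 p.2) :
    tauc h k ρ₁ N l = 0 := if_pos hl

theorem tauc_eq {ρ₁ : ℝ} (H : Cst h (ρ₁ / 2) c d) (hN : 1 / ((N : ℝ) + 1) < d)
    {l : List (M × M)} (hne : l ≠ []) (hl : N929.Fine univ (min d (ρ₁ / 4)) l) :
    tauc h k ρ₁ N l = tau0 h k N l := by
  rw [tauc]
  split_ifs with h1
  · obtain ⟨p, hp, hp1⟩ := h1
    refine (tau0_far H hN hne (hl.mono (subset_univ _) (min_le_left _ _)) fun q hq => ?_).symm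
    have h2 : dist p q < ρ₁ / 4 := (hl.2 p hp q hq).trans_le (min_le_right _ _)
    have h3 : dist p.1 q.1 < ρ₁ / 4 := (le_max_left _ _).trans_lt h2
    have h4 : dist p.2 q.2 < ρ₁ / 4 := (le_max_right _ _).trans_lt h2
    have h5 := dist_triangle4 p.1 q.1 q.2 p.2
    rw [dist_comm q.2 p.2] at h5
    linarith
  · rfl

/-- **[TAU]**: the Thom cochain, as in `N929.Tau`. -/
noncomputable def tauS (h : M ≃ₜ Metric.sphere (0 : EuclideanSpace ℝ (Fin (n + 1))) 1)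
    (k : Type) [Field k] {ρ₁ c d : ℝ} (H : Cst h (ρ₁ / 2) c d) (hρ : 0 < ρ₁) {N : ℕ}
    (hN : 1 / ((N : ℝ) + 1) < d) : N929.Tau k M n ρ₁ where
  f := tauc h k ρ₁ N
  nrm := tauc_nrm k ρ₁
  ε := min d (ρ₁ / 4)
  hε := lt_min H.hd (by linarith)
  coc := fun l hlen hl => by
    rw [N929.dl_congr (g := tau0 h k N) (fun l' h1 h2 => tauc_eq H hN
      (by rintro rfl; simp at h1; omega) (hl.sub h2))]
    exact dl_tau0 H hN hlen (hl.mono (subset_univ _) (min_le_left _ _))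
  supp := fun l hl => tauc_supp hl

end Vale.Agent.P216.Tau
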